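import Vale.Agent.P236K.St.Spec

/-!
# P236, block D3: the interface to the core computation
-/

open CategoryTheory MonoidalCategory MonObj Limits Pretriangulated

namespace Vale.Agent.P236K.D3

open Vale.Agent.P251.St Vale.Agent.P251.St.SHCat Vale.Agent.P236Z.St Vale.Agent.P236Z
  Vale.Agent.P236K.St

/-- the restriction of `f : A ⊗ M ⟶ 𝟙` to the bottom cell -/
def botc {T : SHCat} {A M : T.C} (i : 𝟙_ T.C ⟶ M) (f : A ⊗ M ⟶ 𝟙_ T.C) : A ⟶ 𝟙_ T.C :=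
  (ρ_ A).inv ≫ A ◁ i ≫ f

/-- INPUT from the core: there is `f : S^106 ∧ M ⟶ S` of Adams filtration at most one, with bottom
class `θ`, such that `v₁ θ³` vanishes in `π_322 (X ∧ M)` for some `X ⟶ S` of filtration two. -/
def CoreStmt : Prop :=
  ∀ (T : SHCat) (_ : Susp T) (H : T.C) (e : 𝟙_ T.C ⟶ H), Tr.IsHF 3 e →
    ∀ (M : T.C) (i : 𝟙_ T.C ⟶ M) (δ : M ⟶ (𝟙_ T.C)⟦(1 : ℤ)⟧),
      P251.H.Dist ((3 : ℤ) • 𝟙 (𝟙_ T.C)) i δ →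
      ∃ f : sph T (stem 2) ⊗ M ⟶ 𝟙_ T.C, ¬ Tr.AF e 2 f ∧
        ∃ (X : T.C) (t : X ⟶ 𝟙_ T.C) (th : sph T (stem 2) ⊗ sph T (stem 2) ⟶ X), Tr.AF e 2 t ∧
          th ≫ t = (botc i f ⊗ₘ botc i f) ≫ (λ_ _).hom ∧
          ∀ φ : sph T (stem 3) ⟶ (sph T (stem 2) ⊗ sph T (stem 2) ⊗ sph T (stem 2)) ⊗ M,
            φ ≫ ((botc i f ⊗ₘ th) ≫ (λ_ X).hom) ▷ M = 0

/-- INPUT from block St: `π_4 (H ∧ H)` is not zero. -/
def XiStmt : Prop :=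
  ∀ (T : SHCat) (_ : Susp T) (H : T.C) [MonObj H] [IsCommMonObj H], Tr.IsHF 3 η[H] →
    ∃ ξ : Hom (sph T 4) (ten H H), ξ ≠ 0

/-- What block D3 proves. -/
def D3Stmt : Prop := XiStmt → HI2 → HI3 → CoreStmt → HopfM' 3

end Vale.Agent.P236K.D3
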