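import Vale.Agent.P236Z.Tr.Cells
import Vale.Agent.P236Z.Top.Geo

/-!
# P236, block D3: definitions and statements

`Moore x y`: `A ⟶ Z ⟶ B` is a mod 3 Moore object with bottom cell `x` and top cell `y`.
`NsStmt`, `MuStmt`, `LowStmt`: facts about Moore objects in any stable homotopy category.
`WStmt`: the cyclic extended cube of a map `f : Z ⟶ 𝟙` (proved in the model `Tower.T₀`).
-/

open CategoryTheory MonoidalCategory Limits Pretriangulated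
open Vale.Agent.P251.T Vale.Agent.P251.H Vale.Agent.P251.I Vale.Agent.P236Z.Cat

universe v u

namespace Vale.Agent.P236K.D3

variable {T : Type u} [Category.{v} T] [Preadditive T] [HasZeroObject T]
    [HasShift T ℤ] [∀ n : ℤ, (shiftFunctor T n).Additive] [Pretriangulated T]
    [MonoidalCategory T]

/-- `A` is a sphere of dimension `a` -/
def Sph (a : ℤ) (A : T) : Prop := Nonempty (A ≅ (𝟙_ T)⟦a⟧)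

/-- `Z` is the cone of `3` on `A`, with bottom cell `x` and top cell `y` -/
def Moore {A Z B : T} (x : A ⟶ Z) (y : Z ⟶ B) : Prop :=
  ∃ e : B ≅ A⟦(1 : ℤ)⟧, Dist ((3 : ℤ) • 𝟙 A) x (y ≫ e.hom)

/-- the homotopy groups of `K` vanish in the degrees in `D` -/
def PiZ (D : ℤ → Prop) (K : T) : Prop := ∀ k : ℤ, D k → ∀ g : (𝟙_ T)⟦k⟧ ⟶ K, g = 0

variable (T) in
/-- the low stems at the prime three -/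
structure Low : Prop where
  neg : PiZ (· < 0) (𝟙_ T)
  tf : ∀ k : ℤ, k = 0 ∨ k = 1 → ∀ g : (𝟙_ T)⟦k⟧ ⟶ 𝟙_ T, (3 : ℤ) • g = 0 → g = 0
  dv : ∀ k : ℤ, k = 1 ∨ k = 2 → ∀ g : (𝟙_ T)⟦k⟧ ⟶ 𝟙_ T, ∃ g', g = (3 : ℤ) • g'

variable (T) in
/-- the third power of the unit -/
def un3 : 𝟙_ T ⊗ 𝟙_ T ⊗ 𝟙_ T ⟶ 𝟙_ T := 𝟙_ T ◁ (λ_ (𝟙_ T)).hom ≫ (λ_ (𝟙_ T)).hom

/-- the product of three maps to the unit -/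
def m3 {A B C : T} (a : A ⟶ 𝟙_ T) (b : B ⟶ 𝟙_ T) (c : C ⟶ 𝟙_ T) : A ⊗ B ⊗ C ⟶ 𝟙_ T :=
  (a ⊗ₘ b ⊗ₘ c) ≫ un3 T

variable [SymmetricCategory T]

/-- the norm `1 + γ + γ²` of the third tensor power -/
def nrm (Z : T) : Z ⊗ Z ⊗ Z ⟶ Z ⊗ Z ⊗ Z := 𝟙 _ + rot Z Z Z + rot Z Z Z ≫ rot Z Z Z

/-- The output of the extended cube: `W` is `(Z ⊗ Z ⊗ Z)⟦1⟧` with `V` attached by a map `φ` which is
killed by the norm, `g : W ⟶ 𝟙⟦1⟧` extends the cube of `f`, and the operation `P` on the unit class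
of the cone is `t`. -/
def WOut {Z H K V : T} (f : Z ⟶ 𝟙_ T) (η : 𝟙_ T ⟶ H) (P : H ⟶ K) (t : V ⟶ K) : Prop :=
  ∃ (W C : T) (ι : (Z ⊗ Z ⊗ Z)⟦(1 : ℤ)⟧ ⟶ W) (ρ : W ⟶ V) (φ : V ⟶ ((Z ⊗ Z ⊗ Z)⟦(1 : ℤ)⟧)⟦(1 : ℤ)⟧)
    (i : 𝟙_ T ⟶ C) (π : C ⟶ W) (g : W ⟶ (𝟙_ T)⟦(1 : ℤ)⟧),
    Dist ι ρ φ ∧ Dist i π g ∧ ι ≫ g = (m3 f f f)⟦(1 : ℤ)⟧' ∧
      φ ≫ ((nrm Z)⟦(1 : ℤ)⟧')⟦(1 : ℤ)⟧' = 0 ∧ ∀ u : C ⟶ H, i ≫ u = η → u ≫ P = π ≫ ρ ≫ t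

variable (T) in
/-- (L6) a section over the top cell of the cube of a Moore object which is killed by the norm -/
def NsStmt : Prop := Low T → ∀ (a : ℤ) (A Q B A' V : T) (x : A ⟶ Q) (y : Q ⟶ B) (x' : A' ⟶ V)
  (y' : V ⟶ B ⊗ B ⊗ B), Sph a A → Moore x y → Moore x' y' →
    ∃ s : V ⟶ Q ⊗ Q ⊗ Q, s ≫ (y ⊗ₘ y ⊗ₘ y) = y' ∧ s ≫ nrm Q = 0

variable (T) in
/-- (L7) in even dimensions the cube of `f` factors through `θ² f`, `θ = x ≫ f`, by a map `m` whose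
top component is a norm -/
def MuStmt : Prop := Low T → ∀ (n : ℤ) (A Z B : T) (x : A ⟶ Z) (y : Z ⟶ B), Even n → Sph n A →
  Moore x y → ∃ (m : Z ⊗ Z ⊗ Z ⟶ A ⊗ A ⊗ Z) (ζ : Z ⊗ Z ⊗ Z ⟶ A ⊗ Z ⊗ B),
    (∀ f : Z ⟶ 𝟙_ T, m3 f f f = m ≫ m3 (x ≫ f) (x ≫ f) f) ∧
      nrm Z ≫ ζ = m ≫ A ◁ A ◁ y ≫ A ◁ (x ▷ B)

variable (T) in
/-- (W) the cyclic extended cube -/
def WStmt : Prop := ∀ (n : ℤ) (Z C A B H K A' V : T) (f : Z ⟶ 𝟙_ T) (i : 𝟙_ T ⟶ C)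
  (π : C ⟶ Z⟦(1 : ℤ)⟧) (x : A ⟶ Z⟦(1 : ℤ)⟧) (y : Z⟦(1 : ℤ)⟧ ⟶ B) (η : 𝟙_ T ⟶ H) (P : H ⟶ K)
  (u : C ⊗ C ⊗ C ⟶ H) (c : B ⊗ B ⊗ B ⟶ K) (x' : A' ⟶ V) (y' : V ⟶ B ⊗ B ⊗ B),
  3 ≤ n → Dist f i π → Sph (n + 1) A → Moore x y → Moore x' y' → PiZ (0 < ·) H →
  PiZ (· < 3 * n + 6) K → (i ⊗ₘ i ⊗ₘ i) ≫ u = un3 T ≫ η →
  u ≫ P = ((π ≫ y) ⊗ₘ (π ≫ y) ⊗ₘ (π ≫ y)) ≫ c → WOut f η P (y' ≫ c)

variable (T) in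
/-- the low stems are as stated in the presence of suspension spectra -/
def LowStmt [TensorTriangulated T] : Prop := SpaceFunctor T → Low T

open Vale.Agent.P236Z.Cat in
/-- (DIAG) the diagonal map from the cone of a norm to the norm of the cone -/
def Diag (W : Tower) : Prop := ∀ (Z C : W.T₀.C) (f : Z ⟶ 𝟙_ _) (i : 𝟙_ _ ⟶ C)
  (π : C ⟶ Z⟦(1 : ℤ)⟧), Dist f i π → ∃ (Y : W.T₁.C) (j : W.s₁.N.obj (𝟙_ _) ⟶ Y)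
    (p : Y ⟶ (W.s₁.N.obj Z)⟦(1 : ℤ)⟧) (c : Y ⟶ W.s₁.N.obj C)
    (ω : (W.s₁.N.obj Z)⟦(1 : ℤ)⟧ ⊗ W.s₁.Lr ≅ W.s₁.N.obj (Z⟦(1 : ℤ)⟧)),
    Dist (W.s₁.N.map f) j p ∧ j ≫ c = W.s₁.N.map i ∧
      c ≫ W.s₁.N.map π = p ≫ (ρ_ _).inv ≫ _ ◁ W.s₁.ar ≫ ω.hom

/-- there is a tower with diagonal maps -/
def DiagStmt : Prop := ∃ W : Tower, Diag W

end Vale.Agent.P236K.D3
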