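import Vale.Agent.P236K.D3.DiagM
import Vale.Agent.P236K.D3.Spec
import Vale.Agent.P236Z.Cat.Tower
import Vale.Agent.P236Z.Top.GeoAll

/-!
# P236, block D3: there is a tower with diagonal maps
-/

open CategoryTheory Limits MonoidalCategory ZeroObject Pretriangulated
open Functor.LaxMonoidal Functor.OplaxMonoidal
open Vale.Agent.P251 Vale.Agent.P251.H Vale.Agent.P251.H.CofCat Vale.Agent.P251.H.TensorCofCat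
open Vale.Agent.P251.G Vale.Agent.P251.H.StabInput Vale.Agent.P236Z.Cat

noncomputable section
namespace Vale.Agent.P236K.D3

theorem euler_iso {D : Type*} [Category* D] [MonoidalCategory D] {K K' X Y L : D} {g : X ⟶ Y}
    {a : 𝟙_ D ⟶ L} (ω : Y ≅ X ⊗ L) (h : g ≫ ω.hom = (ρ_ _).inv ≫ _ ◁ a) (x : K ≅ X)
    (y : Y ≅ K') (Z Q : D) (m : Z ⊗ K' ≅ Q) :
    ∃ w : (Z ⊗ K) ⊗ L ≅ Q, Z ◁ (x.hom ≫ g ≫ y.hom) ≫ m.hom = (ρ_ _).inv ≫ _ ◁ a ≫ w.hom := by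
  have h' : g = (ρ_ _).inv ≫ _ ◁ a ≫ ω.inv := by rw [← reassoc_of% h, Iso.hom_inv_id,
    Category.comp_id]
  refine ⟨α_ _ _ _ ≪≫ whiskerLeftIso Z (whiskerRightIso x L ≪≫ ω.symm ≪≫ y) ≪≫ m, ?_⟩
  simp only [h', Iso.trans_hom, whiskerLeftIso_hom, whiskerRightIso_hom, Iso.symm_hom,
    Category.assoc]
  rw [rightUnitor_inv_naturality_assoc, ← whisker_exchange_assoc]
  simp

theorem dg_conj {T₀ : TTC} {F : I.SpaceFunctor T₀.C} {T T' : TTC} {K : Type 1} [Category.{0} K]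
    [MonoidalCategory K] [SymmetricCategory K] {tK : Tw K} {u : K ⥤ I.FCat} {v : I.FCat ⥤ K}
    [v.Braided] {hv : ∀ X, (tK.h (v.obj X)).hom = 𝟙 _} {L : Lvl T₀ F T tK u v}
    {L' : Lvl T₀ F T' (Rt.tw tK) (Rt.U tK ⋙ u) (Rt.triv v hv)} (s : Step L L') (X : I.FCat) :
    ∃ (x : L'.J.obj ((Rt.triv v hv).obj X) ≅ L'.tv.F.obj (F.S.obj X))
      (y : s.N.obj (L.tv.F.obj (F.S.obj X)) ≅ L'.J.obj ((Rt.N tK).obj (v.obj X))),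
      L'.J.map (dgK v hv X) = x.hom ≫ s.dg X ≫ y.hom := by
  let x : L'.J.obj ((Rt.triv v hv).obj X) ≅ L'.tv.F.obj (F.S.obj X) := L'.Jtv.app X
  let y : s.N.obj (L.J.obj (v.obj X)) ≅ L'.J.obj ((Rt.N tK).obj (v.obj X)) := s.JN.app (v.obj X)
  let z : L.J.obj (v.obj X) ≅ L.tv.F.obj (F.S.obj X) := L.Jtv.app X
  refine ⟨x, (s.N.mapIso z).symm ≪≫ y, ?_⟩
  change _ = x.hom ≫ (x.inv ≫ L'.J.map (dgK v hv X) ≫ y.inv ≫ (s.N.mapIso z).hom) ≫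
    (s.N.mapIso z).inv ≫ y.hom
  simp only [Category.assoc, Iso.hom_inv_id_assoc, Iso.inv_hom_id, Category.comp_id]

section gen
variable {C₀ : Type 1} [Category.{0} C₀] [HasZeroObject C₀] [HasZeroMorphisms C₀]
  [HasBinaryCoproducts C₀] [CofCat C₀] [MonoidalCategory C₀] [SymmetricCategory C₀]
  [TensorCofCat C₀]

theorem tensor_zero {X Y Z Z' : C₀} (g : Z ⟶ Z') : ((0 : X ⟶ Y) ⊗ₘ g) = 0 := by
  have hz : IsZero ((0 : C₀) ⊗ Z) :=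
    (isZero_tensor Z (0 : C₀) (isZero_zero _)).of_iso (β_ _ _)
  have h : (0 : X ⟶ Y) = (0 : X ⟶ (0 : C₀)) ≫ 0 := by simp
  rw [MonoidalCategory.tensorHom_def, h, comp_whiskerRight, hz.eq_of_tgt ((0 : X ⟶ (0 : C₀)) ▷ Z) 0]
  simp

instance (t : Tw C₀) : (Rt.N t).PreservesZeroMorphisms :=
  ⟨fun _ _ => Rt.hom_ext (tensor_zero _)⟩

variable [HasCoproducts.{0} C₀] [∀ J : Type, CofCoproducts C₀ J]
  {P₀ : StabModel C₀} {D₀ : Type 1} [Category.{0} D₀] {L₀ : C₀ ⥤ D₀}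
  [L₀.IsLocalization (W (C := C₀))]
  {g₀ : Good P₀ L₀} {F : I.SpaceFunctor g₀.T.C} {j₀ : I.FCat ⥤ C₀} [j₀.Braided]
  (e₀ : F.S ≅ j₀ ⋙ TT.L P₀ L₀)
  (hj : ∀ {A B Q : I.FCat} {i : A ⟶ B} {q : B ⟶ Q}, IsCof (𝟭 _) i q →
    Cof (j₀.map i) ∧ IsPushout (j₀.map i) (0 : _ ⟶ (0 : C₀)) (j₀.map q) (0 : (0 : C₀) ⟶ _))
  [NatTrans.IsMonoidal e₀.hom] [TwI (Tw.id C₀)]
  (β : P₀.m.S ≅ j₀.obj I.RRF) (c : P₀.m.CI ⟶ P₀.m.CI ⊗ P₀.m.CI ⊗ P₀.m.CI)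
  (hr : c ≫ rot _ _ _ = c) (hc : P₀.m.c ≫ c = ε (cube C₀) ≫ (P₀.m.c ⊗ₘ P₀.m.c ⊗ₘ P₀.m.c))
  (hs : P₀.m.s ≫ β.hom ≫ j₀.map (dgF I.RRF) = c ≫ ((P₀.m.s ≫ β.hom) ⊗ₘ (P₀.m.s ≫ β.hom) ⊗ₘ
    (P₀.m.s ≫ β.hom)) ≫ P236Z.Cat.m3 j₀ _ _ _)

include e₀ hj hr hc hs in
theorem diag_of (hst : T.StableCat g₀.T.C) : DiagStmt := by
  have h₀ : TwP P₀ (Tw.id C₀) := ⟨rfl, rfl, rfl⟩
  obtain ⟨D₁, _, L₁, _⟩ := g₀.exists_loc h₀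
  obtain ⟨D₂, _, L₂, _⟩ := (g₀.next h₀ L₁).exists_loc (Rt.twP h₀)
  let r := rel0 e₀ hj
  let W : Tower :=
    { T₀ := g₀.T, stable := hst, F := F, c := conn0 e₀ hj, T₁ := _, T₂ := _, L₁ := _, L₂ := _,
      s₁ := r.step h₀ L₁ hv0, s₂ := (r.next h₀ L₁ hv0).step (Rt.twP h₀) L₂ hv1 }
  let a : (Rt.stabModel h₀).m.S ≅ r.j'.obj (v1.obj I.RRF) := Rt.isoMk β (by
    change 𝟙 _ ≫ β.hom = β.hom ≫ j₀.map (𝟙 _)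
    simp)
  let b : r.j'.obj ((Rt.N _).obj I.RRF) ≅ (Rt.N (Tw.id C₀)).obj P₀.m.S :=
    ((Rt.mapN r.j r.j_h).app I.RRF).symm ≪≫ (Rt.N _).mapIso β.symm
  let D : Dg P₀ (Rt.stabModel h₀) (Rt.N (Tw.id C₀)) :=
    { c := Rt.homMk c (by
        change 𝟙 _ ≫ c = c ≫ rot _ _ _ ≫ (𝟙 _ ⊗ₘ 𝟙 _ ⊗ₘ 𝟙 _)
        rw [reassoc_of% hr]
        simp)
      s := a.hom ≫ r.j'.map (dgK (𝟭 _) hv0 I.RRF) ≫ b.hom
      hc := Rt.hom_ext hc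
      hs := Rt.hom_ext (by
        change P₀.m.s ≫ β.hom ≫ j₀.map (dgF I.RRF ≫ 𝟙 _ ≫ _ ◁ 𝟙 _) ≫
          inv (P236Z.Cat.m3 j₀ _ _ _) ≫ (β.inv ⊗ₘ β.inv ⊗ₘ β.inv) =
          c ≫ (P₀.m.s ⊗ₘ P₀.m.s ⊗ₘ P₀.m.s)
        rw [MonoidalCategory.whiskerLeft_id, Category.comp_id, Category.comp_id, reassoc_of% hs]
        simp) }
  refine ⟨W, fun Z C f i π hT => ?_⟩
  obtain ⟨V, u, d, c', T', h1, h2⟩ := D.diag L₀ L₁ (Rt.NL L₀ h₀ L₁) (Rt.eN L₀ h₀ L₁) hT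
  obtain ⟨ω, hω⟩ := W.s₁.nSph
  obtain ⟨x₀, y₀, h0⟩ : ∃ (x : (TT.L _ L₁).obj (r.j'.obj (v1.obj I.RRF)) ≅
      W.L₁.tv.F.obj (F.S.obj I.RRF)) (y : W.s₁.N.obj ((lvl0 W.c).tv.F.obj (F.S.obj I.RRF)) ≅
      (TT.L _ L₁).obj (r.j'.obj ((Rt.N _).obj I.RRF))),
      (TT.L (Rt.stabModel h₀) L₁).map (r.j'.map (dgK (𝟭 _) hv0 I.RRF)) =
        x.hom ≫ W.s₁.dg I.RRF ≫ y.hom := dg_conj W.s₁ I.RRF
  let x := (κ _ L₁).symm ≪≫ (TT.L _ L₁).mapIso a ≪≫ x₀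
  let y := y₀ ≪≫ (TT.L _ L₁).mapIso b ≪≫
    (Dg.x L₀ L₁ (Rt.NL L₀ h₀ L₁) (Rt.eN L₀ h₀ L₁) P₀.m.S).symm ≪≫ (Rt.NL L₀ h₀ L₁).mapIso (κ P₀ L₀)
  obtain ⟨w, hw⟩ := euler_iso ω hω x y (W.s₁.N.obj Z) _
    (Functor.Monoidal.μIso (Rt.NL L₀ h₀ L₁) Z (KK P₀ L₀))
  refine ⟨V, u, d, c', w, T', h1, h2.trans (congrArg (d ≫ ·) (Eq.trans ?_ hw))⟩
  refine congrArg (fun k => (Rt.NL L₀ h₀ L₁).obj Z ◁ k ≫ μ (Rt.NL L₀ h₀ L₁) Z (KK P₀ L₀)) ?_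
  change D.k L₀ L₁ (Rt.NL L₀ h₀ L₁) (Rt.eN L₀ h₀ L₁) = x.hom ≫ W.s₁.dg I.RRF ≫ y.hom
  simp only [x, y, D, Dg.k, Iso.trans_hom, Iso.symm_hom, Functor.mapIso_hom, Category.assoc,
    Functor.map_comp, h0]

end gen

/-- the threefold diagonal -/
def dgL (X : LC) : X ⟶ X ⊗ X ⊗ X := Q.diag X ≫ X ◁ Q.diag X

theorem dgL_nat {X Y : LC} (f : X ⟶ Y) : f ≫ dgL Y = dgL X ≫ (f ⊗ₘ f ⊗ₘ f) := by
  apply LC.hom_ext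
  intro x
  simp only [dgL, MonoidalCategory.tensorHom_def, MonoidalCategory.whiskerLeft_comp,
    LC.app_comp, Q.app_diag', LC.app_whiskerLeft_smash, LC.app_whiskerRight_smash]

theorem dgL_rot (X : LC) : dgL X ≫ rot X X X = dgL X := by
  apply LC.hom_ext
  intro x
  rfl

theorem dgL_unit : dgL (𝟙_ LC) = ε (cube LC) := by
  rw [cube_ε]
  apply LC.hom_ext
  intro x
  rfl

/-- **(DIAG)** -/
theorem diagStmt : DiagStmt := by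
  obtain ⟨D, _, L, hL⟩ := exists_small_loc PC (isCpt_TT GGC _ unit_GGC)
    (isGen_TT I.FCP _ (fun _ h => h) (spaceFunctor GGC _ J_GGC) fun _ => ⟨Iso.refl _⟩)
    (small_TT GGC _ unit_GGC)
  let g : Good PC L :=
    { pres := flat_preservesColimit_tensorLeft WC, sat := sat0 L, G := 𝟙_ _,
      cpt := isCpt_TT GGC L unit_GGC,
      gen := isGen_TT I.FCP L (fun _ h => h) (spaceFunctor GGC L J_GGC) fun _ => ⟨Iso.refl _⟩ }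
  have : TwI (Tw.id (FlatCat WC)) := ⟨rfl⟩
  let m := asIso (P236Z.Cat.m3 (J CF) LC.HH LC.HH LC.HH)
  have hm : m.hom = P236Z.Cat.m3 (J CF) LC.HH LC.HH LC.HH := rfl
  refine @diag_of _ _ _ _ _ _ _ _ _ _ _ _ _ _ _ _ g (spaceFunctor GGC L J_GGC) (JF WC) _
    (Iso.refl _) cof_JF NatTrans.IsMonoidal.id _ (Iso.refl _)
    (ObjectProperty.homMk ((J CF).map (dgL LC.HH) ≫ m.inv)) ?_ ?_ ?_
    (@stableCat_of g.T.C _ _ _ _ _ _ _ _ _ _ _ _ g.cpt g.gen g.T.closed g.T.products)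
  · refine ObjectProperty.hom_ext _ ?_
    change ((J CF).map (dgL LC.HH) ≫ m.inv) ≫ rot _ _ _ = (J CF).map (dgL LC.HH) ≫ m.inv
    rw [Iso.eq_comp_inv, Category.assoc, hm, rot_m3, ← hm, Category.assoc, Iso.inv_hom_id_assoc,
      ← Functor.map_comp, dgL_rot]
  · refine ObjectProperty.hom_ext _ ?_
    rw [cube_ε]
    change (ε (J CF) ≫ (J CF).map (LC.point (X := LC.HH) 0)) ≫ (J CF).map (dgL LC.HH) ≫ m.inv =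
      ((λ_ _).inv ≫ _ ◁ (λ_ _).inv) ≫ ((ε (J CF) ≫ (J CF).map (LC.point (X := LC.HH) 0)) ⊗ₘ
        (ε (J CF) ≫ (J CF).map (LC.point (X := LC.HH) 0)) ⊗ₘ
        (ε (J CF) ≫ (J CF).map (LC.point (X := LC.HH) 0)))
    have h : (ε (cube CF) ≫ (ε (J CF) ⊗ₘ ε (J CF) ⊗ₘ ε (J CF))) ≫ P236Z.Cat.m3 (J CF) _ _ _ =
      ε (J CF) ≫ (J CF).map (ε (cube LC)) := NatTrans.IsMonoidal.unit (τ := (cubeIso (J CF)).hom)
    rw [← cancel_mono m.hom, ← cube_ε, ← tensorHom_comp_tensorHom, ← tensorHom_comp_tensorHom]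
    simp only [Category.assoc, Iso.inv_hom_id, Category.comp_id]
    rw [hm, m3_natural, ← Functor.map_comp, dgL_nat, dgL_unit, Functor.map_comp, ← reassoc_of% h]
  · refine ObjectProperty.hom_ext _ ?_
    have h : (P236Z.Cat.m3 (JF WC) I.RRF I.RRF I.RRF).hom =
        P236Z.Cat.m3 (J CF) LC.RR LC.RR LC.RR :=
      congrArg₂ (fun a b => (J CF).obj LC.RR ◁ a ≫ b) (JF_μ_hom WC I.RRF I.RRF)
        (JF_μ_hom WC I.RRF (I.RRF ⊗ I.RRF))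
    change (J CF).map LC.openPart ≫ 𝟙 _ ≫ (J CF).map (dgL LC.RR) =
      ((J CF).map (dgL LC.HH) ≫ m.inv) ≫
      (((J CF).map LC.openPart ≫ 𝟙 _) ⊗ₘ ((J CF).map LC.openPart ≫ 𝟙 _) ⊗ₘ
        ((J CF).map LC.openPart ≫ 𝟙 _)) ≫ (P236Z.Cat.m3 (JF WC) I.RRF I.RRF I.RRF).hom
    rw [h]
    change _ = _ ≫ _ ≫ P236Z.Cat.m3 (J CF) LC.RR LC.RR LC.RR
    rw [Category.comp_id, Category.id_comp, m3_natural, ← hm, Category.assoc, Iso.inv_hom_id_assoc,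
      ← Functor.map_comp, ← Functor.map_comp, dgL_nat]

end Vale.Agent.P236K.D3
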