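import Vale.Agent.P236K.D3.Moore
import Vale.Agent.P251.M.MUMain
import Vale.Agent.P257.H314.Line
import Vale.Agent.P257.H314.E2

/-!
# P236, block D3: the low stems at the prime three
-/

open CategoryTheory MonoidalCategory Limits Pretriangulated
open Vale.Agent.P251.T Vale.Agent.P251.H Vale.Agent.P251.M Vale.Agent.P251.S
  Vale.Agent.P257.H314

universe v u

namespace Vale.Agent.P236K.D3

variable {T : Type u} [Category.{v} T] [Preadditive T] [HasZeroObject T]
    [HasShift T ℤ] [∀ n : ℤ, (shiftFunctor T n).Additive] [Pretriangulated T] [IsTriangulated T]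
    [MonoidalCategory T] [SymmetricCategory T] [TensorTriangulated T] [MonoidalClosed T]
    [HasCoproducts.{0} T] [HasProducts.{0} T] [StableCat T]

/-- **(Low)** -/
theorem lowStmt : LowStmt T := by
  intro F
  obtain ⟨D⟩ := MU T F
  have : Fact (Nat.Prime 3) := ⟨Nat.prime_three⟩
  obtain ⟨M, i, δ, hM⟩ := exists_cone ((3 : ℤ) • 𝟙 (𝟙_ T))
  have Mo : Moore i δ := ⟨Iso.refl _, by rwa [Iso.refl_hom, Category.comp_id]⟩
  have hz : ∀ k : ℤ, k = 1 ∨ k = 2 → ∀ {P : T}, Sph k P → ∀ g : P ⟶ M, g = 0 := by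
    intro k hk P ⟨e⟩ g
    rw [← cancel_epi e.inv, comp_zero]
    refine (cyc_modP D (p := 3) (by norm_num) hM).pi_eq_zero
      (BigCell.ext _ hM.rot bigCell_unit (BigCell.sphere 1 (by norm_num)))
      (fun s w hw => algVan_line le_rfl ?_) _
    push_cast
    omega
  refine ⟨unit_conn F, fun k hk g hg => ?_, fun k hk g => ?_⟩
  · obtain ⟨b, hb⟩ := Mo.lifty (g⟦(1 : ℤ)⟧') (by rw [← Functor.map_zsmul, hg, Functor.map_zero])
    rw [hz (k + 1) (by omega) (Sph.shift ⟨Iso.refl _⟩ 1 _ rfl) b, zero_comp] at hb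
    exact (shiftFunctor T (1 : ℤ)).map_injective (by rw [← hb, Functor.map_zero])
  · exact Mo.monox g (hz k hk ⟨Iso.refl _⟩ _)

end Vale.Agent.P236K.D3
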