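import Vale.Agent.P236Z.Tr.Main

/-!
# P236, block D3: transfer of the Adams filtration between stable homotopy categories

* `trans_map` : the Adams filtration of a pointed map out of a sphere does not depend on the model;
* `trans_moore` : if all elements of `π_n` of the mod `p` Moore object have filtration `≥ s` in one
  model, then this holds in all of them;
* `trans_order` : the same for the elements of `π_n 𝟙` which are killed by `p`.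
-/

open CategoryTheory MonoidalCategory Limits Pretriangulated ZeroObject
open Vale.Agent.P251.T Vale.Agent.P251.H Vale.Agent.P251.M Vale.Agent.P251.I
  Vale.Agent.P251.G Vale.Agent.P251.G.LC Vale.Agent.P236Z.Tr

universe v u v₀ u₀

set_option linter.unusedSectionVars false

namespace Vale.Agent.P236K.D3

section One

variable {T : Type u} [Category.{v} T] [Preadditive T] [HasZeroObject T]
    [HasShift T ℤ] [∀ n : ℤ, (shiftFunctor T n).Additive] [Pretriangulated T]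
    [MonoidalCategory T] [SymmetricCategory T] [TensorTriangulated T] (F : SpaceFunctor T)

/-- the Moore space -/
noncomputable abbrev MoF (p : ℕ) : FCat := coneF (FCat.hom (mfold p) : RRF ⟶ RRF)

/-- The suspension spectrum of the Moore space is the suspension of the Moore object. -/
theorem nonempty_moore (p : ℕ) {M : T} {i : 𝟙_ T ⟶ M} {j : M ⟶ (𝟙_ T)⟦(1 : ℤ)⟧}
    (D : Dist ((p : ℤ) • 𝟙 (𝟙_ T)) i j) :
    Nonempty (M ⊗ F.S.obj RRF ≅ F.S.obj (MoF p)) := by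
  obtain ⟨d', D'⟩ := dist_tensR D (F.S.obj RRF)
  have D₁ := dist_iso D' (λ_ _).symm (λ_ _).symm (Iso.refl _)
    (f' := F.S.map (FCat.hom (mfold p) : RRF ⟶ RRF))
    (g' := (λ_ _).inv ≫ i ▷ F.S.obj RRF)
    (by rw [S_mfold, zsmul_whiskerRight]; simp) (by simp)
  have D₂ : Dist _ (F.S.map (coneInrF (FCat.hom (mfold p) : RRF ⟶ RRF))) (F.coneδ _) :=
    F.cone_distinguished _
  obtain ⟨c, h₂, h₃⟩ := D₁.map₃ D₂ (𝟙 _) (𝟙 _) (by simp)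
  rw [Category.id_comp] at h₂
  rw [CategoryTheory.Functor.map_id, Category.comp_id] at h₃
  have := D₁.iso₃ D₂ c h₂ h₃
  exact ⟨asIso c⟩

lemma af_of_spheres' {H : T} {η : 𝟙_ T ⟶ H} {s : ℕ} {n : ℤ} {M : T}
    (h : ∀ θ : (𝟙_ T)⟦n⟧ ⟶ M, AF η s θ) {P Q W : T} {K : ℤ} (eW : W ≅ (𝟙_ T)⟦K⟧)
    (eP : P ≅ (𝟙_ T)⟦n + K⟧) (eQ : Q ≅ M ⊗ W) (f : P ⟶ Q) : AF η s f := by
  refine AF.of_whiskerRight (invOf (Iso.refl ((𝟙_ T)⟦-K⟧))) ?_
  let a : P ⊗ (𝟙_ T)⟦-K⟧ ≅ (𝟙_ T)⟦n⟧ := tenOf P (Iso.refl _) ≪≫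
    (shiftFunctor T (-K)).mapIso eP ≪≫
      ((shiftFunctorAdd' T (n + K) (-K) n (by ring)).app _).symm
  let b : Q ⊗ (𝟙_ T)⟦-K⟧ ≅ M := whiskerRightIso eQ _ ≪≫ α_ _ _ _ ≪≫
    whiskerLeftIso M (invOf eW) ≪≫ ρ_ M
  have h1 : f ▷ (𝟙_ T)⟦-K⟧ = a.hom ≫ (a.inv ≫ f ▷ (𝟙_ T)⟦-K⟧ ≫ b.hom) ≫ b.inv := by simp
  rw [h1]
  exact ((h _).post _).pre _

end One

variable {T₀ : Type u₀} [Category.{v₀} T₀] [Preadditive T₀] [HasZeroObject T₀]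
    [HasShift T₀ ℤ] [∀ n : ℤ, (shiftFunctor T₀ n).Additive] [Pretriangulated T₀]
    [IsTriangulated T₀] [MonoidalCategory T₀] [SymmetricCategory T₀] [TensorTriangulated T₀]
    [MonoidalClosed T₀] [HasCoproducts.{0} T₀] [HasProducts.{0} T₀] [StableCat T₀]
    [LocallySmall.{0} T₀]
    {T : Type u} [Category.{v} T] [Preadditive T] [HasZeroObject T]
    [HasShift T ℤ] [∀ n : ℤ, (shiftFunctor T n).Additive] [Pretriangulated T]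
    [MonoidalCategory T] [SymmetricCategory T] [TensorTriangulated T]
    (F₀ : SpaceFunctor T₀) (F : SpaceFunctor T) {p : ℕ} {H₀ : T₀} {η₀ : 𝟙_ T₀ ⟶ H₀}
    (hH₀ : IsHF p η₀) {H : T} {η : 𝟙_ T ⟶ H} (hH : IsHF p η)

include hH₀ hH in
/-- The Adams filtration of a pointed map out of a sphere does not depend on the model. -/
theorem trans_map (s : ℕ) {U₀ V₀ : FCat} (t : U₀ ⟶ V₀) {k : ℤ}
    (eP : F₀.S.obj U₀ ≅ (𝟙_ T₀)⟦k⟧) (h : AF η₀ s (F₀.S.map t)) : AF η s (F.S.map t) := by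
  obtain ⟨X, j, ⟨U, V, u, K, ⟨eV⟩, hu, hj⟩, hf⟩ := exists_fin (η := η₀) (Rz F₀ F η)
    (rz_zero F₀ F) (fun s X X' j j' hX hj hj' => by
      rw [add_comm]
      exact rz_mul F₀ F (rz_one F₀ F hH₀ hH hX j hj) hj') _ s _ (eP.inv ≫ F₀.S.map t) (h.pre _)
  have h1 : FT (F₀.S.map t) (sc j _) := (FT.iso eP.symm _).trans hf
  have h2 : FT (F₀.S.map (V ◁ t)) (F₀.S.map (u ▷ V₀)) := by
    rw [S_whiskerLeft, S_whiskerRight]
    refine FT.pre _ (FT.trans (FT.post ?_ _) (FT.iso (mu F₀ _ _).symm _))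
    refine (h1.whiskerLeft _).trans ?_
    rw [sc_comm, sc_tensor]
    exact ((hj.whiskerRight _).pre _).pre _
  have h3 : AF η s (F.S.map (V ◁ t)) := by
    refine (ft_transfer F₀ F h2).af ?_
    rw [S_whiskerRight]
    exact ((hu.whiskerRight _).post _).pre _
  refine AF.of_whiskerLeft (invOf eV) ?_
  have h5 := (h3.post (mu F V _).inv).pre (mu F V _).hom
  rw [S_whiskerLeft] at h5
  simpa only [Category.assoc, Iso.hom_inv_id_assoc, Iso.hom_inv_id, Category.comp_id] using h5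

include F₀ F hH₀ hH in
/-- The Adams filtration of the homotopy groups of the Moore object does not depend on the model. -/
theorem trans_moore (q : ℕ) {M₀ : T₀} {i₀ : 𝟙_ T₀ ⟶ M₀} {j₀ : M₀ ⟶ (𝟙_ T₀)⟦(1 : ℤ)⟧}
    (D₀ : Dist ((q : ℤ) • 𝟙 (𝟙_ T₀)) i₀ j₀) {M : T} {i : 𝟙_ T ⟶ M} {j : M ⟶ (𝟙_ T)⟦(1 : ℤ)⟧}
    (D : Dist ((q : ℤ) • 𝟙 (𝟙_ T)) i j) (s : ℕ) (n : ℤ)
    (h : ∀ θ₀ : (𝟙_ T₀)⟦n⟧ ⟶ M₀, AF η₀ s θ₀) (θ : (𝟙_ T)⟦n⟧ ⟶ M) : AF η s θ := by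
  obtain ⟨m⟩ := nonempty_moore F q D
  obtain ⟨m₀⟩ := nonempty_moore F₀ q D₀
  obtain ⟨a, b, hb⟩ : ∃ a b : ℕ, n + 1 + (a : ℤ) = b :=
    ⟨(n + 1).natAbs, (n + 1 + ((n + 1).natAbs : ℤ)).toNat, by omega⟩
  let w : F.S.obj RRF ⊗ F.S.obj (SphF a) ≅ (𝟙_ T)⟦1 + (a : ℤ)⟧ := tenOf _ (sphIso F a) ≪≫
    (shiftFunctor T (a : ℤ)).mapIso F.line ≪≫ ((shiftFunctorAdd T _ _).app _).symm
  let c : (𝟙_ T)⟦n⟧ ⊗ (F.S.obj RRF ⊗ F.S.obj (SphF a)) ≅ F.S.obj (SphF b) := tenOf _ w ≪≫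
    ((shiftFunctorAdd' T n (1 + (a : ℤ)) (b : ℤ) (by omega)).app _).symm ≪≫ (sphIso F b).symm
  let c' : M ⊗ (F.S.obj RRF ⊗ F.S.obj (SphF a)) ≅ F.S.obj (MoF q ⊗ SphF a) :=
    (α_ _ _ _).symm ≪≫ whiskerRightIso m _ ≪≫ mu F _ _
  obtain ⟨N, t, ht⟩ := F.full (c.inv ≫ θ ▷ _ ≫ c'.hom)
  let eP : F₀.S.obj (SphF b ⊗ SphF N) ≅ (𝟙_ T₀)⟦n + (1 + (a : ℤ) + N)⟧ := sphShift F₀ _ N ≪≫
    (shiftFunctor T₀ (N : ℤ)).mapIso (sphIso F₀ b) ≪≫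
      ((shiftFunctorAdd' T₀ (b : ℤ) _ _ (by omega)).app _).symm
  let w₀ : (F₀.S.obj RRF ⊗ F₀.S.obj (SphF a)) ⊗ F₀.S.obj (SphF N) ≅
      (𝟙_ T₀)⟦1 + (a : ℤ) + N⟧ := tenOf _ (sphIso F₀ N) ≪≫
    (shiftFunctor T₀ (N : ℤ)).mapIso (tenOf _ (sphIso F₀ a) ≪≫
      (shiftFunctor T₀ (a : ℤ)).mapIso F₀.line ≪≫ ((shiftFunctorAdd T₀ _ _).app _).symm) ≪≫
    ((shiftFunctorAdd T₀ _ _).app _).symm
  let eQ : F₀.S.obj ((MoF q ⊗ SphF a) ⊗ SphF N) ≅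
      M₀ ⊗ ((F₀.S.obj RRF ⊗ F₀.S.obj (SphF a)) ⊗ F₀.S.obj (SphF N)) :=
    (mu F₀ _ _).symm ≪≫ whiskerRightIso ((mu F₀ _ _).symm ≪≫ whiskerRightIso m₀.symm _ ≪≫
      α_ _ _ _) _ ≪≫ α_ _ _ _
  have h4 : AF η s (F.S.map t) :=
    trans_map F₀ F hH₀ hH s t eP (af_of_spheres' h w₀ eP eQ _)
  have h6 : AF η s (c.inv ≫ θ ▷ _ ≫ c'.hom) := by
    refine AF.of_whiskerRight (invOf (sphIso F N)) ?_
    have h5 := (h4.post (mu F _ _).inv).pre (mu F _ _).hom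
    rw [ht] at h5
    simpa only [Category.assoc, Iso.hom_inv_id_assoc, Iso.hom_inv_id, Category.comp_id] using h5
  refine AF.of_whiskerRight (invOf w) ?_
  have h7 := (h6.post c'.inv).pre c.hom
  simpa only [Category.assoc, Iso.hom_inv_id_assoc, Iso.hom_inv_id, Category.comp_id] using h7

include F₀ F hH₀ hH in
/-- The Adams filtration of the elements of order `q` does not depend on the model. -/
theorem trans_order (q : ℕ) (s : ℕ) (n : ℤ)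
    (h : ∀ θ₀ : (𝟙_ T₀)⟦n⟧ ⟶ 𝟙_ T₀, (q : ℤ) • θ₀ = 0 → AF η₀ s θ₀) (θ : (𝟙_ T)⟦n⟧ ⟶ 𝟙_ T)
    (hθ : (q : ℤ) • θ = 0) : AF η s θ := by
  obtain ⟨a, b, hb⟩ : ∃ a b : ℕ, n + (a : ℤ) = b :=
    ⟨n.natAbs, (n + (n.natAbs : ℤ)).toNat, by omega⟩
  let c : (𝟙_ T)⟦n⟧ ⊗ F.S.obj (SphF a) ≅ F.S.obj (SphF b) := tenOf _ (sphIso F a) ≪≫
    ((shiftFunctorAdd' T n _ _ hb).app _).symm ≪≫ (sphIso F b).symm
  obtain ⟨M, t, ht⟩ := F.full (c.inv ≫ sc θ (F.S.obj (SphF a)))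
  let eP : F₀.S.obj (SphF b ⊗ SphF M) ≅ (𝟙_ T₀)⟦n + ((a : ℤ) + M)⟧ := sphShift F₀ _ M ≪≫
    (shiftFunctor T₀ (M : ℤ)).mapIso (sphIso F₀ b) ≪≫
      ((shiftFunctorAdd' T₀ (b : ℤ) _ _ (by omega)).app _).symm
  let eQ : F₀.S.obj (SphF a ⊗ SphF M) ≅ (𝟙_ T₀)⟦(a : ℤ) + M⟧ := sphShift F₀ _ M ≪≫
    (shiftFunctor T₀ (M : ℤ)).mapIso (sphIso F₀ a) ≪≫ ((shiftFunctorAdd T₀ _ _).app _).symm
  have hq : (q : ℤ) • F.S.map t = 0 := by
    rw [ht, ← Preadditive.comp_zsmul, ← Preadditive.zsmul_comp, ← zsmul_whiskerRight,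
      ← Preadditive.comp_zsmul, ← sc_zsmul, hθ, sc, MonoidalPreadditive.zero_whiskerRight,
      zero_comp, comp_zero, MonoidalPreadditive.zero_whiskerRight, zero_comp, comp_zero]
  have hq₀ : (q : ℤ) • F₀.S.map t = 0 := by
    let E : FCat := ⟨LC.of Empty, FC.empty⟩
    have hE : IsEmpty E.obj := inferInstanceAs (IsEmpty Empty)
    let z : E ⟶ (SphF a ⊗ SphF M) ⊗ RRF := FCat.hom 0
    let r := (SphF b ⊗ SphF M) ◁ (FCat.hom (mfold q) : RRF ⟶ RRF) ≫ t ▷ RRF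
    have h1 : FT (F.S.map r) (F.S.map z) := ⟨0, by
      rw [zero_comp, Functor.map_comp, S_whiskerLeft_mfold, Preadditive.zsmul_comp,
        Category.id_comp, S_whiskerRight, ← Preadditive.comp_zsmul, ← Preadditive.zsmul_comp,
        ← zsmul_whiskerRight, hq, MonoidalPreadditive.zero_whiskerRight, zero_comp, comp_zero]⟩
    obtain ⟨y, hy⟩ := ft_transfer F F₀ h1
    rw [(F₀.isZero hE).eq_of_tgt y 0, zero_comp, Functor.map_comp, S_whiskerLeft_mfold,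
      Preadditive.zsmul_comp, Category.id_comp, S_whiskerRight, ← Preadditive.comp_zsmul,
      ← Preadditive.zsmul_comp, ← zsmul_whiskerRight] at hy
    have h2 : ((q : ℤ) • F₀.S.map t) ▷ F₀.S.obj RRF = 0 := by
      rw [← cancel_epi (mu F₀ _ RRF).inv, ← cancel_mono (mu F₀ _ RRF).hom, Category.assoc, ← hy,
        comp_zero, zero_comp]
    have h3 := eq_conj_whiskerRight (invOf F₀.line) ((q : ℤ) • F₀.S.map t)
    rw [h2, MonoidalPreadditive.zero_whiskerRight, zero_comp] at h3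
    rw [← cancel_epi ((α_ _ _ _).hom ≫ _ ◁ (invOf F₀.line).hom ≫ (ρ_ _).hom), ← h3, comp_zero]
  have h4 : AF η s (F.S.map t) := by
    refine trans_map F₀ F hH₀ hH s t eP ?_
    refine AF.of_whiskerRight (invOf (Iso.refl ((𝟙_ T₀)⟦-((a : ℤ) + M)⟧))) ?_
    let e : F₀.S.obj (SphF b ⊗ SphF M) ⊗ (𝟙_ T₀)⟦-((a : ℤ) + M)⟧ ≅ (𝟙_ T₀)⟦n⟧ :=
      tenOf _ (Iso.refl _) ≪≫ (shiftFunctor T₀ (-((a : ℤ) + M))).mapIso eP ≪≫
        ((shiftFunctorAdd' T₀ (n + ((a : ℤ) + M)) (-((a : ℤ) + M)) n (by ring)).app _).symm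
    have h1 : F₀.S.map t ▷ (𝟙_ T₀)⟦-((a : ℤ) + M)⟧ = e.hom ≫
        (e.inv ≫ F₀.S.map t ▷ (𝟙_ T₀)⟦-((a : ℤ) + M)⟧ ≫ (invOf eQ).hom) ≫ (invOf eQ).inv := by
      simp
    rw [h1]
    refine ((h _ ?_).post _).pre _
    rw [← Preadditive.comp_zsmul, ← Preadditive.zsmul_comp, ← zsmul_whiskerRight, hq₀,
      MonoidalPreadditive.zero_whiskerRight, zero_comp, comp_zero]
  have h6 : AF η s (c.inv ≫ sc θ (F.S.obj (SphF a))) := by
    refine AF.of_whiskerRight (invOf (sphIso F M)) ?_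
    have h5 := (h4.post (mu F _ _).inv).pre (mu F _ _).hom
    rw [ht] at h5
    simpa only [Category.assoc, Iso.hom_inv_id_assoc, Iso.hom_inv_id, Category.comp_id] using h5
  refine AF.of_whiskerRight (invOf (sphIso F a)) ?_
  have h7 := (h6.post (λ_ _).inv).pre c.hom
  simpa only [sc, Category.assoc, Iso.hom_inv_id_assoc, Iso.hom_inv_id, Category.comp_id] using h7

end Vale.Agent.P236K.D3
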