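import Vale.Agent.P236K.D3.Cor
import Vale.Agent.P236K.D3.Core
import Vale.Agent.P236K.D3.Diag
import Vale.Agent.P236K.D3.Low
import Vale.Agent.P236K.D3.Trans
import Vale.Agent.P236Z.Top.GeoAll
import Vale.Agent.P236Z.Dt.HF
import Vale.Agent.P251.St.OfFunctor

/-!
# P236, block D3: the final statement of the block
-/

open CategoryTheory MonoidalCategory Limits Pretriangulated MonObj
open Vale.Agent.P251 Vale.Agent.P251.T Vale.Agent.P251.H Vale.Agent.P251.St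
open Vale.Agent.P236Z Vale.Agent.P236Z.Cat Vale.Agent.P236Z.Tr Vale.Agent.P236K.St

namespace Vale.Agent.P236K.D3

theorem sph_bigS (T : SHCat) : ∀ j : ℕ, Sph (4 * 3 ^ j) (bigS T j)
  | 0 => ⟨Iso.refl _⟩
  | j + 1 => (sph_bigS T j).ten ((sph_bigS T j).ten (sph_bigS T j) _ rfl) _ (by ring)

theorem Moore.isoBot {T : SHCat} {A A' Z B : T.C} {x : A ⟶ Z} {y : Z ⟶ B} (M : Moore x y)
    (a : A' ≅ A) : Moore (a.hom ≫ x) y := by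
  obtain ⟨e, D⟩ := M
  refine ⟨e ≪≫ (shiftFunctor T.C (1 : ℤ)).mapIso a.symm, ?_⟩
  have := dist_iso D a a (Iso.refl _) (f' := (3 : ℤ) • 𝟙 A') (g' := a.hom ≫ x) (by simp) (by simp)
  simpa using this

/-- **Block D3.** -/
theorem d3Stmt : D3Stmt := by
  intro hXi h2 h3 hC T S H e he M i δ D
  obtain ⟨W, hD⟩ := diagStmt
  let T₀ : SHCat := W.T₀.toSH W.stable
  let S₀ : Susp T₀ := ofSpaceFunctor W.F
  have := locallySmall_self.{0} W.T₀.C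
  have := locallySmall_self.{0} T.C
  obtain ⟨H₀, _, _, hH₀⟩ := Dt.exists_HFmon W.F (p := 3) (by norm_num)
  obtain ⟨M₀, i₀, δ₀, D₀⟩ := exists_cone ((3 : ℤ) • 𝟙 (𝟙_ W.T₀.C))
  have hL := lowStmt W.F
  obtain ⟨f, hf, X, t, th, ht, h₁, h₂⟩ := hC T₀ S₀ H₀ _ hH₀ M₀ i₀ δ₀ D₀
  obtain ⟨ξ, hξ⟩ := hXi T₀ S₀ H₀ hH₀
  have hA : Sph 106 ((𝟙_ W.T₀.C)⟦stem 2⟧) := ⟨Iso.refl _⟩
  obtain ⟨φ, hφ⟩ := cor (wStmt_of hD (stGeo W).c1 hL nsStmt) hH₀ (n := 106) (by norm_num) f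
    (sph_bigS T₀ 3) (h2 T₀ S₀ H₀ hH₀ M₀ i₀ δ₀ D₀ ξ hξ 2 f hf)
    (id_tensorHom (H₀ ⊗ H₀) μ[H₀ ⊗ H₀] ▸ h3 T₀ S₀ H₀ hH₀ ξ hξ 4) hL (by decide) hA
    (Moore.isoBot (T := T₀) ((Moore.of_dist D₀).wl _) (ρ_ _).symm) D₀
    (S := (𝟙_ _)⟦stem 3⟧) (S' := (𝟙_ _)⟦stem 3 + 1⟧) ⟨Iso.refl _⟩ ⟨Iso.refl _⟩
  have hx : ((ρ_ _).symm.hom ≫ _ ◁ i₀) ≫ f = botc (T := T₀) i₀ f := Category.assoc _ _ _
  obtain ⟨g₀, hg₀⟩ := hφ X t ((α_ _ _ _).inv ≫ (th ⊗ₘ f) ≫ (ρ_ X).hom) ht (by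
    rw [Category.assoc, Category.assoc, ← rightUnitor_naturality, ← tensorHom_id,
      tensorHom_comp_tensorHom_assoc, h₁, hx, m3, ← tensorHom_comp_tensorHom, Category.assoc,
      ← associator_inv_naturality_assoc, un3]
    congr 1
    monoidal) (by
    rw [← h₂ (φ ≫ ((α_ _ _ _).inv ≫ (β_ _ _).hom) ▷ M₀), Category.assoc, ← comp_whiskerRight,
      associator_inv_naturality_right_assoc, ← id_tensorHom, tensorHom_comp_tensorHom_assoc, hx,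
      Category.assoc, ← BraidedCategory.braiding_naturality_assoc, braiding_leftUnitor,
      Category.id_comp])
  by_contra h
  exact hg₀ (trans_moore S.toSpaceFunctor W.F he hH₀ 3 D D₀ 2 _
    (fun g => by_contra fun hg => h ⟨g, hg⟩) g₀)

end Vale.Agent.P236K.D3
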