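import Vale.Agent.P236K.D3.Spec
import Vale.Agent.P236Z.Tr.Fac
import Vale.Agent.P251.M.EvenShift

/-!
# P236, block D3: tensor powers of mod three Moore objects
-/

open CategoryTheory MonoidalCategory Limits Pretriangulated
open Vale.Agent.P251.T Vale.Agent.P251.H Vale.Agent.P251.M Vale.Agent.P236Z.Cat

universe v u

set_option linter.unusedSectionVars false

namespace Vale.Agent.P236K.D3

variable {T : Type u} [Category.{v} T] [Preadditive T] [HasZeroObject T]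
    [HasShift T ℤ] [∀ n : ℤ, (shiftFunctor T n).Additive] [Pretriangulated T]
    [MonoidalCategory T]

namespace Sph

theorem iso {a : ℤ} {A B : T} (h : Sph a A) (e : B ≅ A) : Sph a B := ⟨e ≪≫ h.some⟩

theorem shift {a : ℤ} {A : T} (h : Sph a A) (k b : ℤ) (hb : a + k = b) : Sph b (A⟦k⟧) :=
  ⟨(shiftFunctor T k).mapIso h.some ≪≫ ((shiftFunctorAdd' T a k b hb).app _).symm⟩

theorem unshift {a b k : ℤ} {A : T} (h : Sph b (A⟦k⟧)) (hb : a + k = b) : Sph a A :=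
  (h.shift (-k) a (by omega)).iso (shiftShiftNeg A k).symm

theorem unit : Sph 0 (𝟙_ T) := ⟨((shiftFunctorZero T ℤ).app _).symm⟩

/-- maps between spheres are stems -/
theorem equiv {a b : ℤ} {A P : T} (hA : Sph a A) (hP : Sph b P) (k : ℤ) (hk : a = b + k) :
    Nonempty ((A ⟶ P) ≃+ ((𝟙_ T)⟦k⟧ ⟶ 𝟙_ T)) := by
  obtain ⟨x⟩ := hA.shift (-b) k (by omega)
  obtain ⟨y⟩ := hP.shift (-b) 0 (by omega)
  let y' := y ≪≫ (shiftFunctorZero T ℤ).app _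
  refine ⟨AddEquiv.ofBijective (AddMonoidHom.mk' (fun g => x.inv ≫ g⟦-b⟧' ≫ y'.hom) fun g g' => by
    simp) ⟨fun g g' h => ?_, fun g => ?_⟩⟩
  · exact (shiftFunctor T (-b)).map_injective
      ((cancel_mono y'.hom).1 ((cancel_epi x.inv).1 h))
  · obtain ⟨f, hf⟩ := (shiftFunctor T (-b)).map_surjective (x.hom ≫ g ≫ y'.inv)
    exact ⟨f, by simp [hf]⟩

theorem tf (hL : Low T) {a b : ℤ} {A P : T} (hA : Sph a A) (hP : Sph b P)
    (h : a = b ∨ a = b + 1) (g : A ⟶ P) (hg : (3 : ℤ) • g = 0) : g = 0 := by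
  obtain ⟨e⟩ := hA.equiv hP (a - b) (by ring)
  exact e.map_eq_zero_iff.1 (hL.tf (a - b) (by omega) _ (by rw [← map_zsmul, hg, map_zero]))

theorem dv (hL : Low T) {a b : ℤ} {A P : T} (hA : Sph a A) (hP : Sph b P)
    (h : a = b + 1 ∨ a = b + 2) (g : A ⟶ P) : ∃ g', g = (3 : ℤ) • g' := by
  obtain ⟨e⟩ := hA.equiv hP (a - b) (by ring)
  obtain ⟨g', hg⟩ := hL.dv (a - b) (by omega) (e g)
  exact ⟨e.symm g', e.injective (by rw [hg, map_zsmul, e.apply_symm_apply])⟩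

theorem neg (hL : Low T) {a b : ℤ} {A P : T} (hA : Sph a A) (hP : Sph b P)
    (h : a < b) (g : A ⟶ P) : g = 0 := by
  obtain ⟨e⟩ := hA.equiv hP (a - b) (by ring)
  exact e.map_eq_zero_iff.1 (hL.neg (a - b) (by omega) _)

end Sph

namespace Moore

variable {A Z B : T} {x : A ⟶ Z} {y : Z ⟶ B} (M : Moore x y)
include M

theorem xy : x ≫ y = 0 := by
  obtain ⟨e, D⟩ := M
  rw [← cancel_mono e.hom, Category.assoc, D.zero₂₃, zero_comp]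

theorem x3 : (3 : ℤ) • x = 0 := by
  obtain ⟨e, D⟩ := M
  simpa using D.zero₁₂

theorem y3 : (3 : ℤ) • y = 0 := by
  obtain ⟨e, D⟩ := M
  have h := D.zero₃₁
  rw [Functor.map_zsmul, CategoryTheory.Functor.map_id] at h
  rw [← cancel_mono e.hom]
  simpa using h

theorem top {a : ℤ} (h : Sph a A) : Sph (a + 1) B := (h.shift 1 _ rfl).iso M.choose

theorem bot {a : ℤ} (h : Sph (a + 1) B) : Sph a A := (h.iso M.choose.symm).unshift rfl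

theorem descx {X : T} (g : A ⟶ X) (hg : (3 : ℤ) • g = 0) : ∃ g', x ≫ g' = g := by
  obtain ⟨e, D⟩ := M
  exact D.desc₂ g (by simpa using hg)

theorem descy {X : T} (g : Z ⟶ X) (hg : x ≫ g = 0) : ∃ g', y ≫ g' = g := by
  obtain ⟨e, D⟩ := M
  obtain ⟨b, hb⟩ := D.desc₃ g hg
  exact ⟨e.hom ≫ b, by rw [← hb, Category.assoc]⟩

theorem epiy {X : T} (g : B ⟶ X) (hg : y ≫ g = 0) : ∃ g', g = (3 : ℤ) • g' := by
  obtain ⟨e, D⟩ := M
  obtain ⟨b, hb⟩ := D.desc₁ (e.inv ≫ g) (by simpa using hg)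
  rw [Functor.map_zsmul, CategoryTheory.Functor.map_id] at hb
  refine ⟨e.hom ≫ b, ?_⟩
  rw [← Preadditive.comp_zsmul, ← Category.id_comp b, ← Preadditive.zsmul_comp, hb,
    Iso.hom_inv_id_assoc]

theorem liftx {X : T} (g : X ⟶ Z) (hg : g ≫ y = 0) : ∃ g', g' ≫ x = g := by
  obtain ⟨e, D⟩ := M
  exact D.rot.lift₂ g (by rw [reassoc_of% hg, zero_comp])

theorem lifty {X : T} (g : X ⟶ B) (hg : (3 : ℤ) • g = 0) : ∃ g', g' ≫ y = g := by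
  obtain ⟨e, D⟩ := M
  obtain ⟨b, hb⟩ := D.lift₁ (g ≫ e.hom) (by
    rw [Functor.map_zsmul, CategoryTheory.Functor.map_id, Preadditive.comp_zsmul, Category.comp_id,
      ← Preadditive.zsmul_comp, hg, zero_comp])
  exact ⟨b, by rw [← cancel_mono e.hom, Category.assoc, hb]⟩

theorem monox {X : T} (g : X ⟶ A) (hg : g ≫ x = 0) : ∃ g', g = (3 : ℤ) • g' := by
  obtain ⟨e, D⟩ := M
  obtain ⟨b, hb⟩ := D.lift₂ g hg
  exact ⟨b, by simpa using hb.symm⟩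

/-- maps out of a Moore object vanish if they vanish on the cells -/
theorem hom_zero {X : T} (h1 : ∀ g : A ⟶ X, g = 0) (h2 : ∀ g : B ⟶ X, g = 0) (g : Z ⟶ X) :
    g = 0 := by
  obtain ⟨b, rfl⟩ := M.descy g (h1 _)
  rw [h2 b, comp_zero]

/-- maps to a Moore object vanish if maps to the cells vanish -/
theorem zero_hom {X : T} (h1 : ∀ g : X ⟶ A, g = 0) (h2 : ∀ g : X ⟶ B, g = 0) (g : X ⟶ Z) :
    g = 0 := by
  obtain ⟨b, rfl⟩ := M.liftx g (h2 _)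
  rw [h1 b, zero_comp]

/-- `π₁ M = π₂ M = 0` -/
theorem pi_zero (hL : Low T) {a k : ℤ} (hA : Sph a A) {P : T} (hP : Sph k P)
    (h : k = a + 1 ∨ k = a + 2) (g : P ⟶ Z) : g = 0 := by
  obtain ⟨b, rfl⟩ := M.liftx g (hP.tf hL (M.top hA) (by omega) _
    (by rw [← Preadditive.comp_zsmul, M.y3, comp_zero]))
  obtain ⟨c, rfl⟩ := hP.dv hL hA h b
  rw [Preadditive.zsmul_comp, ← Preadditive.comp_zsmul, M.x3, comp_zero]

/-- `[M, S] = [Σ M, S] = 0` -/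
theorem copi_zero (hL : Low T) {a k : ℤ} (hA : Sph a A) {P : T} (hP : Sph k P)
    (h : a = k ∨ a = k + 1) (g : Z ⟶ P) : g = 0 := by
  obtain ⟨b, rfl⟩ := M.descy g (hA.tf hL hP h _
    (by rw [← Preadditive.zsmul_comp, M.x3, zero_comp]))
  obtain ⟨c, rfl⟩ := (M.top hA).dv hL hP (by omega) b
  rw [Preadditive.comp_zsmul, ← Preadditive.zsmul_comp, M.y3, zero_comp]

theorem three (hL : Low T) {a : ℤ} (hA : Sph a A) : (3 : ℤ) • 𝟙 Z = 0 := by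
  obtain ⟨b, hb⟩ := M.descy ((3 : ℤ) • 𝟙 Z) (by simpa using M.x3)
  rw [← hb, M.pi_zero hL hA (M.top hA) (Or.inl rfl) b, comp_zero]

theorem three_src (hL : Low T) {a : ℤ} (hA : Sph a A) {X : T} (g : Z ⟶ X) : (3 : ℤ) • g = 0 := by
  rw [← Category.id_comp g, ← Preadditive.zsmul_comp, M.three hL hA, zero_comp]

theorem three_tgt (hL : Low T) {a : ℤ} (hA : Sph a A) {X : T} (g : X ⟶ Z) : (3 : ℤ) • g = 0 := by
  rw [← Category.comp_id g, ← Preadditive.comp_zsmul, M.three hL hA, comp_zero]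

/-- `[Σ M, M] = 0` -/
theorem succ_zero (hL : Low T) {a : ℤ} (hA : Sph (a + 1) A) {A' Z' B' : T} {x' : A' ⟶ Z'}
    {y' : Z' ⟶ B'} (M' : Moore x' y') (hA' : Sph a A') (g : Z ⟶ Z') : g = 0 :=
  M'.zero_hom (M.copi_zero hL hA hA' (Or.inr rfl)) (M.copi_zero hL hA (M'.top hA') (Or.inl rfl)) g

omit M in
theorem map {T' : Type u} [Category.{v} T'] [Preadditive T'] [HasZeroObject T'] [HasShift T' ℤ]
    [∀ n : ℤ, (shiftFunctor T' n).Additive] [Pretriangulated T'] (F : T ⥤ T') [F.CommShift ℤ]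
    [F.IsTriangulated] (M : Moore x y) : Moore (F.map x) (F.map y) := by
  obtain ⟨e, D⟩ := M
  refine ⟨F.mapIso e ≪≫ (F.commShiftIso (1 : ℤ)).app A, ?_⟩
  have h : Dist (F.map ((3 : ℤ) • 𝟙 A)) (F.map x)
    (F.map (y ≫ e.hom) ≫ (F.commShiftIso (1 : ℤ)).hom.app A) := F.map_distinguished _ D
  rwa [Functor.map_zsmul, F.map_id, F.map_comp, Category.assoc] at h

variable [SymmetricCategory T] [TensorTriangulated T]

theorem wl (P : T) : Moore (P ◁ x) (P ◁ y) := M.map (tensorLeft P)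

theorem wr (P : T) : Moore (x ▷ P) (y ▷ P) := M.map (tensorRight P)

end Moore

variable [SymmetricCategory T] [TensorTriangulated T]

namespace Sph

theorem ten {a b : ℤ} {A B : T} (hA : Sph a A) (hB : Sph b B) (c : ℤ) (h : a + b = c) :
    Sph c (A ⊗ B) := (hA.shift b c h).iso (P236Z.Tr.tenOf A hB.some)

theorem swap_iso {A B : T} (e : A ≅ B) {c : ℤ} (h : (β_ B B).hom = c • 𝟙 _) :
    (β_ A A).hom = c • 𝟙 _ := by
  rw [← cancel_mono (e ⊗ᵢ e).hom, tensorIso_hom, ← BraidedCategory.braiding_naturality, h]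
  simp

theorem swap_even {a : ℤ} {A : T} (h : Sph a A) (ha : Even a) : (β_ A A).hom = 𝟙 _ := by
  obtain ⟨k, rfl⟩ := ha.two_dvd
  have h1 := (stdEven T).mu_comm k k (k + k) rfl rfl
  rw [← one_smul ℤ (𝟙 (A ⊗ A))]
  refine swap_iso (h.some ≪≫ ((stdEven T).sphIso (Iso.refl _) k).symm) ?_
  rw [← cancel_mono ((stdEven T).mu k k (k + k) rfl).hom, h1]
  simp

theorem swap_odd {a : ℤ} {A : T} (h : Sph (a + 1) A) (ha : Even a) :
    (β_ A A).hom = (-1 : ℤ) • 𝟙 _ := by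
  have h0 : Sph a ((𝟙_ T)⟦a⟧) := ⟨Iso.refl _⟩
  refine swap_iso (h.some ≪≫ (h0.ten (b := 1) ⟨Iso.refl _⟩ _ rfl).some.symm) ?_
  have h1 := tensorμ_β ((𝟙_ T)⟦a⟧) ((𝟙_ T)⟦(1 : ℤ)⟧) ((𝟙_ T)⟦a⟧) ((𝟙_ T)⟦(1 : ℤ)⟧)
  rw [h0.swap_even ha, TensorTriangulated.sign, id_tensorHom, whiskerLeft_neg'] at h1
  have : IsIso (tensorμ ((𝟙_ T)⟦a⟧) ((𝟙_ T)⟦(1 : ℤ)⟧) ((𝟙_ T)⟦a⟧) ((𝟙_ T)⟦(1 : ℤ)⟧)) :=
    ⟨_, tensorμ_tensorδ _ _ _ _, tensorδ_tensorμ _ _ _ _⟩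
  rw [← cancel_mono (tensorμ _ _ _ _), ← h1]
  simp

theorem rot_id {a : ℤ} {A : T} (h : Sph a A) : rot A A A = 𝟙 _ := by
  rcases Int.even_or_odd a with ha | ⟨k, rfl⟩
  · simp [rot, h.swap_even ha]
  · have h1 := h.swap_odd (even_two_mul k)
    rw [neg_smul, one_smul] at h1
    simp [rot, h1, neg_whiskerRight', whiskerLeft_neg']

end Sph

theorem ten3 {A B C A' B' C' : T} (a : A ⟶ A') (b : B ⟶ B') (c : C ⟶ C') :
    (a ⊗ₘ b ⊗ₘ c) = a ▷ (B ⊗ C) ≫ A' ◁ (b ▷ C) ≫ A' ◁ B' ◁ c := by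
  simp only [MonoidalCategory.tensorHom_def, MonoidalCategory.whiskerLeft_comp]

/-- **(L6)** -/
theorem nsStmt : NsStmt T := by
  intro hL a A Q B A' V x y x' y' hA M M'
  have hB := M.top hA
  have hA' : Sph (3 * a + 2) A' := M'.bot (hB.ten (hB.ten hB _ rfl) _ (by ring))
  have h3 : ∀ {X : T} (g : V ⟶ X), (3 : ℤ) • g = 0 := M'.three_src hL hA'
  obtain ⟨s₁, h1⟩ := ((M.wl B).wl B).lifty y' (h3 _)
  obtain ⟨s₂, h2⟩ := ((M.wr Q).wl B).lifty s₁ (h3 _)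
  obtain ⟨s, hs⟩ := (M.wr (Q ⊗ Q)).lifty s₂ (h3 _)
  have hy : s ≫ (y ⊗ₘ y ⊗ₘ y) = y' := by rw [ten3, reassoc_of% hs, reassoc_of% h2, h1]
  have key : ∀ D : V ⟶ Q ⊗ Q ⊗ Q, D ≫ (y ⊗ₘ y ⊗ₘ y) = 0 → D ≫ rot Q Q Q = D := by
    intro D hD
    rw [ten3, ← Category.assoc, ← Category.assoc] at hD
    obtain ⟨d₁, e₁⟩ := ((M.wl B).wl B).liftx _ hD
    rw [M'.copi_zero hL hA' (hB.ten (hB.ten hA _ rfl) (3 * a + 2) (by ring)) (Or.inl rfl) d₁,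
      zero_comp] at e₁
    obtain ⟨d₂, e₂⟩ := ((M.wr Q).wl B).liftx _ e₁.symm
    rw [M'.succ_zero hL (a := 3 * a + 1) (by rwa [add_assoc]) ((M.wl A).wl B)
      (hB.ten (hA.ten hA _ rfl) _ (by ring)) d₂, zero_comp] at e₂
    obtain ⟨d₃, rfl⟩ := (M.wr (Q ⊗ Q)).liftx _ e₂.symm
    obtain ⟨d₄, rfl⟩ := ((M.wr Q).wl A).liftx d₃ (M'.succ_zero hL (a := 3 * a + 1)
      (by rwa [add_assoc]) ((M.wl B).wl A) (hA.ten (hB.ten hA _ rfl) _ (by ring)) _)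
    obtain ⟨d₅, rfl⟩ := ((M.wl A).wl A).liftx d₄ (M'.copi_zero hL hA'
      (hA.ten (hA.ten hB _ rfl) (3 * a + 1) (by ring)) (Or.inr (by ring)) _)
    have hx : A ◁ A ◁ x ≫ A ◁ (x ▷ Q) ≫ x ▷ (Q ⊗ Q) = x ⊗ₘ x ⊗ₘ x := by
      simp only [tensorHom_def', MonoidalCategory.whiskerLeft_comp, Category.assoc]
    simp only [Category.assoc]
    rw [reassoc_of% hx, hx, rot_natural, hA.rot_id, Category.id_comp]
  have hD := key (s ≫ rot Q Q Q - s) (by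
    rw [Preadditive.sub_comp, Category.assoc, ← rot_natural, hB.rot_id, Category.comp_id, sub_self])
  refine ⟨s, hy, ?_⟩
  rw [Preadditive.sub_comp, Category.assoc, sub_eq_iff_eq_add] at hD
  rw [nrm, Preadditive.comp_add, Preadditive.comp_add, hD, Category.comp_id,
    ← h3 (s ≫ rot Q Q Q)]
  abel

section Mu

variable (hL : Low T) {n : ℤ} {A Z B : T} {x : A ⟶ Z} {y : Z ⟶ B} (hA : Sph n A) (M : Moore x y)
include hL hA M

/-- maps from the cube of a Moore object to a Moore object of the middle dimension -/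
theorem cube_ext {A' Y B' : T} {x' : A' ⟶ Y} {y' : Y ⟶ B'} (M' : Moore x' y')
    (hA' : Sph (3 * n + 1) A') (g : Z ⊗ Z ⊗ Z ⟶ Y) (h1 : (x ⊗ₘ x ⊗ₘ 𝟙 Z) ≫ g = 0)
    (h2 : (x ⊗ₘ 𝟙 Z ⊗ₘ x) ≫ g = 0) (h3 : (𝟙 Z ⊗ₘ x ⊗ₘ x) ≫ g = 0) : g = 0 := by
  have hB := M.top hA
  have t3 : ∀ {X : T} (g : X ⟶ Y), (3 : ℤ) • g = 0 := M'.three_tgt hL hA'
  have p2 : ∀ {P : T}, Sph (3 * n + 2) P → ∀ g : P ⟶ Y, g = 0 := fun h =>
    M'.pi_zero hL hA' h (Or.inl (by ring))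
  obtain ⟨g₁, e₁⟩ := ((M.wr Z).wl A).descy (x ▷ (Z ⊗ Z) ≫ g) (by
    rw [← h1, tensorHom_id, tensorHom_def', Category.assoc])
  obtain ⟨c₁, f₁⟩ := ((M.wr A).wl A).epiy (A ◁ B ◁ x ≫ g₁) (by
    rw [← h2, id_tensorHom, tensorHom_def', Category.assoc, ← e₁,
      ← MonoidalCategory.whiskerLeft_comp_assoc, ← MonoidalCategory.whiskerLeft_comp_assoc,
      whisker_exchange])
  obtain ⟨g₁', rfl⟩ := ((M.wl B).wl A).descy g₁ (f₁.trans (t3 _))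
  rw [p2 (hA.ten (hB.ten hB _ rfl) _ (by ring)) g₁', comp_zero, comp_zero] at e₁
  obtain ⟨g₂, rfl⟩ := (M.wr (Z ⊗ Z)).descy g e₁.symm
  obtain ⟨c₂, f₂⟩ := (M.wr (A ⊗ A)).epiy (B ◁ A ◁ x ≫ B ◁ x ▷ Z ≫ g₂) (by
    rw [← h3, id_tensorHom, whisker_exchange_assoc, tensorHom_def',
      MonoidalCategory.whiskerLeft_comp, Category.assoc])
  obtain ⟨g₃, e₃⟩ := ((M.wl A).wl B).descy _ (f₂.trans (t3 _))
  rw [p2 (hB.ten (hA.ten hB _ rfl) _ (by ring)) g₃, comp_zero] at e₃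
  obtain ⟨g₄, rfl⟩ := ((M.wr Z).wl B).descy g₂ e₃.symm
  rw [((M.wl B).wl B).succ_zero hL (a := 3 * n + 1) (hB.ten (hB.ten hA _ rfl) _ (by ring)) M' hA'
    g₄, comp_zero, comp_zero]

theorem exists_retr (hn : Even n) : ∃ r : Z ⊗ Z ⟶ A ⊗ Z, x ▷ Z ≫ r = 𝟙 _ ∧
    Z ◁ x ≫ r = (β_ Z A).hom ∧ ∀ f : Z ⟶ 𝟙_ T, (f ⊗ₘ f) = r ≫ ((x ≫ f) ⊗ₘ f) := by
  have hB := M.top hA
  have hAA : Sph (2 * n) (A ⊗ A) := hA.ten hA _ (by ring)
  have hBA : Sph (2 * n + 1) (B ⊗ A) := hB.ten hA _ (by ring)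
  obtain ⟨r, hr⟩ := (M.wr Z).descx (𝟙 (A ⊗ Z)) ((M.wl A).three hL hAA)
  refine ⟨r, hr, ?_, fun f => ?_⟩
  · obtain ⟨c, hc⟩ := (M.wr A).descy (Z ◁ x ≫ r - (β_ Z A).hom) (by
      rw [Preadditive.comp_sub, ← whisker_exchange_assoc, hr,
        BraidedCategory.braiding_naturality_left, hA.swap_even hn]
      simp)
    rw [(M.wl A).pi_zero hL hAA hBA (Or.inl rfl) c, comp_zero] at hc
    exact sub_eq_zero.1 hc.symm
  · obtain ⟨σ, hσ⟩ := (M.wr Z).descy (𝟙 _ - r ≫ x ▷ Z) (by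
      rw [Preadditive.comp_sub, reassoc_of% hr]
      simp)
    obtain ⟨d₁, e₁⟩ := (M.wl B).liftx ((σ ≫ (β_ Z Z).hom + σ) ≫ y ▷ Z) (by
      rw [Category.assoc, ← MonoidalCategory.tensorHom_def, Preadditive.add_comp, Category.assoc,
        ← BraidedCategory.braiding_naturality, hB.swap_odd hn]
      simp)
    rw [(M.wl B).copi_zero hL hBA hBA (Or.inl rfl) d₁, zero_comp] at e₁
    obtain ⟨d₂, e₂⟩ := (M.wr Z).liftx _ e₁.symm
    rw [(M.wl B).succ_zero hL hBA (M.wl A) hAA d₂, zero_comp] at e₂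
    have h1 : (β_ Z Z).hom ≫ (f ⊗ₘ f) = (f ⊗ₘ f) := by
      rw [← BraidedCategory.braiding_naturality, Sph.unit.swap_even Even.zero, Category.comp_id]
    have h2 := congrArg (· ≫ (f ⊗ₘ f)) e₂
    simp only [zero_comp, Preadditive.add_comp, Category.assoc, h1] at h2
    have h3 := (M.wl B).three_src hL hBA (σ ≫ (f ⊗ₘ f))
    have h4 : σ ≫ (f ⊗ₘ f) = 0 := by
      have h6 : σ ≫ (f ⊗ₘ f) = (3 : ℤ) • (σ ≫ (f ⊗ₘ f)) - (σ ≫ (f ⊗ₘ f) + σ ≫ (f ⊗ₘ f)) := by abel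
      rw [h6, h3, ← h2, sub_zero]
    have h5 := congrArg (· ≫ (f ⊗ₘ f)) hσ
    simp only [Category.assoc, h4, comp_zero, Preadditive.sub_comp, Category.id_comp] at h5
    rw [(sub_eq_zero.1 h5.symm), ← tensorHom_id, tensorHom_comp_tensorHom, Category.id_comp]

end Mu

/-- **(L7)** -/
theorem muStmt : MuStmt T := by
  intro hL n A Z B x y hn hA M
  have hB := M.top hA
  obtain ⟨r, hr, hb, ha⟩ := exists_retr hL hA M hn
  let w : Z ⊗ A ⊗ Z ⟶ A ⊗ Z ⊗ Z := (α_ Z A Z).inv ≫ (β_ Z A).hom ▷ Z ≫ (α_ A Z Z).hom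
  refine ⟨Z ◁ r ≫ w ≫ A ◁ r, (α_ Z Z Z).inv ≫ (r ⊗ₘ y) ≫ (α_ A Z B).hom, fun f => ?_, ?_⟩
  · have h1 : w ≫ ((x ≫ f) ⊗ₘ f ⊗ₘ f) = f ⊗ₘ (x ≫ f) ⊗ₘ f := by
      simp only [w, Category.assoc]
      rw [← associator_naturality, ← tensorHom_id, tensorHom_comp_tensorHom_assoc,
        ← BraidedCategory.braiding_naturality, Sph.unit.swap_even Even.zero, Category.comp_id,
        Category.id_comp, associator_naturality, Iso.inv_hom_id_assoc]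
    have h2 : ∀ {X : T} (g : X ⟶ 𝟙_ T), X ◁ r ≫ (g ⊗ₘ (x ≫ f) ⊗ₘ f) = g ⊗ₘ f ⊗ₘ f := fun g => by
      rw [← id_tensorHom, tensorHom_comp_tensorHom, Category.id_comp, ← ha]
    simp only [m3, Category.assoc]
    rw [reassoc_of% h2, reassoc_of% h1, reassoc_of% h2]
  · have hβ := hA.swap_even hn
    have hxx : (x ⊗ₘ x) ≫ r = A ◁ x := by
      rw [tensorHom_def', Category.assoc, hr, Category.comp_id]
    have hw : x ▷ (A ⊗ Z) ≫ w = A ◁ x ▷ Z := by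
      simp only [w]
      rw [associator_inv_naturality_left_assoc, ← comp_whiskerRight_assoc,
        BraidedCategory.braiding_naturality_left, hβ, Category.id_comp,
        associator_naturality_middle, Iso.inv_hom_id_assoc]
    have z : ∀ {X Y W : T} (a : X ⟶ Z) (b : Y ⟶ Z) (c : W ⟶ Z),
        (a ⊗ₘ b ⊗ₘ c) ≫ (α_ Z Z Z).inv ≫ (r ⊗ₘ y) ≫ (α_ A Z B).hom =
          (α_ X Y W).inv ≫ (((a ⊗ₘ b) ≫ r) ⊗ₘ (c ≫ y)) ≫ (α_ A Z B).hom := fun a b c => by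
      rw [associator_inv_naturality_assoc, tensorHom_comp_tensorHom_assoc]
    have z1 : (x ⊗ₘ x ⊗ₘ 𝟙 Z) ≫ (α_ Z Z Z).inv ≫ (r ⊗ₘ y) ≫ (α_ A Z B).hom =
        A ◁ A ◁ y ≫ A ◁ x ▷ B := by
      rw [z, hxx, Category.id_comp, ← id_tensorHom, associator_naturality, Iso.inv_hom_id_assoc,
        id_tensorHom, tensorHom_def', MonoidalCategory.whiskerLeft_comp]
    have z2 : (x ⊗ₘ 𝟙 Z ⊗ₘ x) ≫ (α_ Z Z Z).inv ≫ (r ⊗ₘ y) ≫ (α_ A Z B).hom = 0 := by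
      rw [z, M.xy, MonoidalPreadditive.tensor_zero, zero_comp, comp_zero]
    have z3 : (𝟙 Z ⊗ₘ x ⊗ₘ x) ≫ (α_ Z Z Z).inv ≫ (r ⊗ₘ y) ≫ (α_ A Z B).hom = 0 := by
      rw [z, M.xy, MonoidalPreadditive.tensor_zero, zero_comp, comp_zero]
    have m1 : (x ⊗ₘ x ⊗ₘ 𝟙 Z) ≫ Z ◁ r ≫ w ≫ A ◁ r = 𝟙 _ := by
      rw [← id_tensorHom, tensorHom_comp_tensorHom_assoc, tensorHom_id, hr, Category.comp_id,
        tensorHom_id, reassoc_of% hw, ← MonoidalCategory.whiskerLeft_comp, hr,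
        MonoidalCategory.whiskerLeft_id]
    have m2 : (x ⊗ₘ 𝟙 Z ⊗ₘ x) ≫ Z ◁ r ≫ w ≫ A ◁ r = rot A Z A := by
      rw [← id_tensorHom, tensorHom_comp_tensorHom_assoc, id_tensorHom, hb, Category.comp_id,
        tensorHom_def', Category.assoc, reassoc_of% hw, ← MonoidalCategory.whiskerLeft_comp, hr]
      simp [rot, hβ]
    have m3 : (𝟙 Z ⊗ₘ x ⊗ₘ x) ≫ Z ◁ r ≫ w ≫ A ◁ r = rot Z A A ≫ rot A Z A := by
      rw [id_tensorHom, ← MonoidalCategory.whiskerLeft_comp_assoc, hxx]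
      simp only [w, Category.assoc]
      rw [associator_inv_naturality_right_assoc, whisker_exchange_assoc,
        associator_naturality_right_assoc, ← MonoidalCategory.whiskerLeft_comp, hb]
      simp [rot, hβ]
    rw [← sub_eq_zero]
    refine cube_ext hL hA M ((M.wr B).wl A) (hA.ten (hA.ten hB _ rfl) _ (by ring)) _ ?_ ?_ ?_ <;>
      simp only [nrm, Preadditive.comp_sub, Preadditive.add_comp, Preadditive.comp_add,
        Category.assoc, Category.id_comp, rot_natural_assoc, z1, z2, z3, comp_zero, add_zero,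
        zero_add, reassoc_of% m1, reassoc_of% m2, reassoc_of% m3, sub_self]

end Vale.Agent.P236K.D3
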