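import Vale.Agent.P236K.SS.Und
import Vale.Agent.P236K.St5.Fin
import Vale.Agent.P236K.D3.Core
import Vale.Agent.P236K.D3.Moore
import Vale.Agent.P257.L.Inv
import Vale.Agent.P257.H314.Assemble

/-!
# P236, block D3: from the statement on the exact couple to `CoreStmt`

* `v1`, `exists_v`, `pi4_gen` : `π₄ M` is generated by a class detected by `v₁`;
* `omega th v` : the product `v θ³` in the couple of the Moore object;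
* `CoreC` : the core statement on the couple, `core_of : CoreC → CoreStmt`.
-/

open CategoryTheory MonoidalCategory MonObj Limits Pretriangulated

set_option linter.unusedSectionVars false

universe v u

namespace Vale.Agent.P236K.D3

open Vale.Agent.P251 Vale.Agent.P251.T Vale.Agent.P251.F Vale.Agent.P251.I
  Vale.Agent.P251.M Vale.Agent.P257.H314 Vale.Agent.P257.H712 Vale.Agent.P251.H
  Vale.Agent.P236K.SS Vale.Agent.P236Z Vale.Agent.P236Z.Dt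
open Vale.Agent.P251.S hiding IC
open Vale.Agent.P257.H762 (AI)

/-- the class `v₁` -/
noncomputable def v1 : Cob.wt Laz 0 2 := vw 3 1 0

section Gen

variable {T : Type u} [Category.{v} T] [Preadditive T] [HasZeroObject T]
    [HasShift T ℤ] [∀ n : ℤ, (shiftFunctor T n).Additive] [Pretriangulated T] [IsTriangulated T]
    [MonoidalCategory T] [SymmetricCategory T] [TensorTriangulated T] [MonoidalClosed T]
    [HasCoproducts.{0} T] [HasProducts.{0} T] [StableCat T]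

theorem exists_wr (k : ℤ) {X Y : T} (h : X ⊗ (𝟙_ T)⟦k⟧ ⟶ Y ⊗ (𝟙_ T)⟦k⟧) :
    ∃ f : X ⟶ Y, f ▷ _ = h := by
  obtain ⟨f, hf⟩ := (shiftFunctor T k).map_surjective
    ((tensorSph k X).inv ≫ h ≫ (tensorSph k Y).hom)
  exact ⟨f, by
    rw [← cancel_mono (tensorSph k Y).hom, tensorSph_naturality, hf, Iso.hom_inv_id_assoc]⟩

theorem Sph.exists_wl {k : ℤ} {L : T} (hL : Sph k L) {X Y : T} (h : L ⊗ X ⟶ L ⊗ Y) :
    ∃ f : X ⟶ Y, L ◁ f = h := by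
  obtain ⟨e⟩ := hL
  obtain ⟨f, hf⟩ := exists_wr k ((β_ X _).hom ≫ e.inv ▷ X ≫ h ≫ e.hom ▷ Y ≫ (β_ _ Y).hom)
  refine ⟨f, ?_⟩
  rw [← cancel_mono (e.hom ▷ Y), ← cancel_mono (β_ _ Y).hom, whisker_exchange, Category.assoc,
    BraidedCategory.braiding_naturality_right, hf]
  simp

theorem exists_two {X Y : T} (g : (X⟦(1 : ℤ)⟧)⟦(1 : ℤ)⟧ ⟶ (Y⟦(1 : ℤ)⟧)⟦(1 : ℤ)⟧) :
    ∃ f : X ⟶ Y, (f⟦(1 : ℤ)⟧')⟦(1 : ℤ)⟧' = g :=
  (shiftFunctor T (1 : ℤ) ⋙ shiftFunctor T (1 : ℤ)).map_surjective g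

theorem two_inj {X Y : T} {f g : X ⟶ Y} (h : (f⟦(1 : ℤ)⟧')⟦(1 : ℤ)⟧' = (g⟦(1 : ℤ)⟧')⟦(1 : ℤ)⟧') :
    f = g := (shiftFunctor T (1 : ℤ) ⋙ shiftFunctor T (1 : ℤ)).map_injective h

theorem SE_two {X Y : T} (f : X ⟶ Y) : SE f ((f⟦(1 : ℤ)⟧')⟦(1 : ℤ)⟧') :=
  (SE.shift f 1).trans (SE.shift _ 1)

theorem AI_unit {X Y Z : T} (f : X ⟶ 𝟙_ T) (g : Y ⟶ Z) : AI ((f ⊗ₘ g) ≫ (λ_ Z).hom) (f ⊗ₘ g) :=
  AI.of_comp_iso _ _

section Xi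

variable {R : T} [MonObj R] (U : UnitCof R)

/-- Multiplication by a class of filtration zero is the tensor product. -/
theorem AI_ξG {P Y : T} {k : ℤ} (w : P ⟶ U.cobar.B 2 (𝟙_ T)) (g : (𝟙_ T)⟦k⟧ ⟶ Y) :
    AI (w⟦k⟧' ≫ ξG U (σ := 0) g 2 2 rfl) (w ⊗ₘ g) := by
  let b : ∀ Z : T, (U.J ⊗ U.J ⊗ 𝟙_ T) ⊗ Z ≅ U.J ⊗ U.J ⊗ Z := fun Z =>
    α_ _ _ _ ≪≫ whiskerLeftIso U.J (α_ _ _ _ ≪≫ whiskerLeftIso U.J (λ_ Z))
  have hb : ∀ Z : T, (b Z).hom = (α_ _ _ _).hom ≫ U.J ◁ (α_ _ _ _).hom ≫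
      U.J ◁ U.J ◁ (λ_ Z).hom := fun Z => by simp [b]
  have h0 : ξG U (σ := 0) g 2 2 rfl = ((csh U.J k (U.J ⊗ 𝟙_ T)).inv ≫
      U.J ◁ (csh U.J k (𝟙_ T)).inv) ≫ U.J ◁ U.J ◁ g := by
    refine congrArg₂ (· ≫ ·) ?_ (Category.comp_id _)
    exact congrArg (· ≫ U.J ◁ (csh U.J k (𝟙_ T)).inv) (Category.id_comp _)
  have h1 : (tensorSph k (U.J ⊗ U.J ⊗ 𝟙_ T)).hom ≫ (csh U.J k (U.J ⊗ 𝟙_ T)).inv ≫
      U.J ◁ (csh U.J k (𝟙_ T)).inv = (b _).hom := by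
    rw [tensorSph_tensor, tensorSph_tensor, tensorSph_unit, hb]
    simp only [MonoidalCategory.whiskerLeft_comp, Category.assoc, Iso.hom_inv_id_assoc,
      whiskerLeft_hom_inv, Category.comp_id]
  refine AI.symm ⟨tensorSph k P, b Y, ?_⟩
  rw [h0, ← tensorSph_naturality_assoc, Category.assoc, reassoc_of% h1,
    MonoidalCategory.tensorHom_def, Category.assoc, hb, hb]
  congr 1
  monoidal

theorem SE_ξG {P Y : T} {t k t' : ℤ} (e : t + k = t') (w : P⟦t⟧ ⟶ U.cobar.B 2 (𝟙_ T))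
    (g : (𝟙_ T)⟦k⟧ ⟶ Y) : SE (sh t k t' e w ≫ ξG U (σ := 0) g 2 2 rfl) (w ⊗ₘ g) := by
  refine SE.of_AI (AI.trans ?_ (AI_ξG U w g))
  have h := AI.of_iso_comp ((shiftFunctorAdd' T t k t' e).app P)
    (w⟦k⟧' ≫ ξG U (σ := 0) g 2 2 rfl)
  rw [← Category.assoc] at h
  exact h

theorem mulC_mapD {P X Y Z : T} {k : ℤ} (hk : ∃ n : ℕ, k = 2 * (n : ℤ)) {σ : ℕ} {a : ℤ}
    (ha : k = a + σ) (f : X ⟶ Y) (g : Y⟦k⟧ ⟶ U.cobar.B σ Z) {s s' : ℕ} {n n' : ℤ}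
    (h : s + σ = s') (e : n + a = n') (y : (TC U P X).D s n) :
    (mulC U P hk ha g).fD s s' n n' h e (mapD f y) =
      (mulC U P hk ha (f⟦k⟧' ≫ g)).fD s s' n n' h e y := by
  apply (eD U P rfl).injective
  rw [eD_mulC hk ha g h e rfl rfl (TMor.deg ha h e),
    eD_mulC hk ha _ h e rfl rfl (TMor.deg ha h e), eD_mapD, sh_comp, Category.assoc, ξG_pre]

end Xi

theorem exists_src {S A P Q Y : T} (s : S ≅ A) (e : P ≅ (S⟦(1 : ℤ)⟧)⟦(1 : ℤ)⟧) (a : P ≅ Q)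
    {θ : A ⟶ 𝟙_ T} {g : Q ⟶ Y} {r : Y ⟶ ((𝟙_ T)⟦(1 : ℤ)⟧)⟦(1 : ℤ)⟧}
    (h : ((s.hom ≫ θ)⟦(1 : ℤ)⟧')⟦(1 : ℤ)⟧' = -(e.inv ≫ (a.hom ≫ g) ≫ r)) :
    ∃ b : (A⟦(1 : ℤ)⟧)⟦(1 : ℤ)⟧ ≅ Q, (θ⟦(1 : ℤ)⟧')⟦(1 : ℤ)⟧' = b.hom ≫ g ≫ r := by
  refine ⟨((shiftFunctor T (1 : ℤ)).mapIso ((shiftFunctor T (1 : ℤ)).mapIso s)).symm ≪≫
    ⟨-𝟙 _, -𝟙 _, by simp, by simp⟩ ≪≫ e.symm ≪≫ a, ?_⟩
  rw [Functor.map_comp, Functor.map_comp, Category.assoc] at h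
  simp only [Iso.trans_hom, Iso.symm_hom, Category.assoc, Iso.eq_inv_comp,
    Preadditive.neg_comp, Category.id_comp]
  exact h

variable (D : MUData T) (U : UnitCof D.R) {M : T} {i : 𝟙_ T ⟶ M} {δ : M ⟶ (𝟙_ T)⟦(1 : ℤ)⟧}

theorem e4 : (4 : ℤ) + ((0 : ℕ) : ℤ) = 2 * 2 := by norm_num

theorem e108 : (106 : ℤ) + ((2 : ℕ) : ℤ) = 2 * 54 := by norm_num

/-- multiplication by a class of `π₄ M` -/
noncomputable def mulV (y : (CC D U M).D 0 4) : CMap (CC D U (𝟙_ T)) (CC D U M) 0 4 :=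
  mulW (v := 2) (by norm_num) e4.symm (eD U (𝟙_ T) e4 y)

/-- multiplication by a class of filtration two in the stem `106` -/
noncomputable def mulTh (th : (CC D U (𝟙_ T)).D 2 106) :
    CMap (CC D U (𝟙_ T)) (CC D U (𝟙_ T)) 2 106 :=
  mulW (v := 54) (by norm_num) e108.symm (eD U (𝟙_ T) e108 th)

/-- the third power -/
noncomputable def cube (th : (CC D U (𝟙_ T)).D 2 106) : (CC D U (𝟙_ T)).D 6 318 :=
  (mulTh D U th).fD 4 6 212 318 rfl (by norm_num)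
    ((mulTh D U th).fD 2 4 106 212 rfl (by norm_num) th)

/-- the product `v θ³` -/
noncomputable def omega (th : (CC D U (𝟙_ T)).D 2 106) (y : (CC D U M).D 0 4) :
    (CC D U M).D 6 322 :=
  (mulV D U y).fD 6 6 318 322 rfl (by norm_num) (cube D U th)

/-- `ω` through a self map of the Moore object which extends `y`. -/
theorem omega_eq (th : (CC D U (𝟙_ T)).D 2 106) (y : (CC D U M).D 0 4)
    (g : M⟦2 * 2⟧ ⟶ U.cobar.B 0 M) (hg : i⟦2 * 2⟧' ≫ g = eD U (𝟙_ T) e4 y) :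
    omega D U th y = (mulW (v := 2) (by norm_num) e4.symm g).fD 6 6 318 322 rfl (by norm_num)
      (mapD i (cube D U th)) := by
  rw [mulW, mulC_mapD, hg]
  rfl

theorem SE_omega (th : (CC D U (𝟙_ T)).D 2 106) (y : (CC D U M).D 0 4) :
    SE (eD U (𝟙_ T) (t := 324) (by norm_num)
      ((CC D U M).proj 322 (show 2 ≤ 6 by norm_num) (omega D U th y)))
      ((und th ⊗ₘ und th ⊗ₘ eD U (𝟙_ T) e108 th) ⊗ₘ eD U (𝟙_ T) e4 y) := by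
  have h26 : 2 ≤ 6 := by norm_num
  have h1 : eD U (𝟙_ T) (t := 320) (by norm_num)
      ((CC D U (𝟙_ T)).proj 318 h26 (cube D U th)) =
      sh 212 (2 * 54) 320 (by norm_num) (sh 106 106 212 (by norm_num) (und th) ≫ und th) ≫
        eD U (𝟙_ T) e108 th := by
    rw [cube, mulTh, mulW, eD_proj_mulC _ e108.symm th _ _ le_rfl h26 e108 _ (by norm_num),
      und_mulC, Couple.proj_self]
  rw [omega, CMap.proj_f _ _ (b := 2) (b' := 2) (c := 6) (c' := 6) rfl rfl h26, mulV, mulW,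
    eD_mulC _ _ _ _ _ (t := 320) (by norm_num) _ (by norm_num), h1]
  refine (SE_ξG U _ _ _).trans (SE.tensor ?_ (SE.refl _))
  refine (SE_sh_comp _ _ _).trans (SE.trans ?_ (SE.of_AI (AI.assoc _ _ _)))
  exact (SE_sh_comp _ _ _).tensor (SE.refl _)

section Pi4

variable (hM : Dist ((3 : ℤ) • 𝟙 (𝟙_ T)) i δ)

include hM

theorem cycM : Cyc D 3 1 i := cyc_modP D (p := 3) (by norm_num) hM

theorem exists_v : ∃ y : (CC D U M).D 0 4, (CC D U M).j 0 4 y = cls D U i e4 v1 :=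
  Couple.exists_lift _ (m := 3) (by norm_num) _ (isCocycle_cls (cycM D hM) e4 (d_v_mem 3 1))
    (fun s hs => van_of_alg (cycM D hM) fun w hw => algVan_line le_rfl (by push_cast at *; omega))
    3 fun y => CC_D_eq_zero (bigCell_M (p := 3) hM) (by norm_num) y

theorem pi4_zero (y : (CC D U M).D 0 4) (hy : (CC D U M).j 0 4 y = 0) : y = 0 := by
  obtain ⟨y₁, rfl⟩ := Couple.exact_j _ _ _ _ hy
  obtain ⟨y', hy'⟩ := Couple.exists_iN_eq _ (s := 0) (m := 4) (fun s _ =>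
    van_of_alg (cycM D hM) fun w hw => algVan_line le_rfl (by push_cast at *; omega)) y₁ 5
  rw [← hy', CC_D_eq_zero (bigCell_M (p := 3) hM) (by norm_num) y', map_zero]

theorem pi4_gen {y : (CC D U M).D 0 4} (hy : (CC D U M).j 0 4 y = cls D U i e4 v1)
    (y' : (CC D U M).D 0 4) : ∃ c : ℤ, y' = c • y := by
  obtain ⟨z, hz, e⟩ := exists_cocycle (cycM D hM) e4 _ (Couple.isCocycle_j _ y')
  obtain ⟨c, hc⟩ := P257.L.exists_int_of_inv (p := 3) (h := 1) le_rfl z hz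
  refine ⟨c, sub_eq_zero.1 (pi4_zero D U hM _ ?_)⟩
  rw [map_sub, map_zsmul, hy, ← e, ← map_zsmul, sub_eq_zero]
  exact cls_congr (cycM D hM) e4 hc

end Pi4

/-- The statement of `CoreStmt` on the cube of `θ`. -/
theorem plumb {H : T} [MonObj H] (u : D.R ⟶ H) [IsMonHom u]
    (hM : Dist ((3 : ℤ) • 𝟙 (𝟙_ T)) i δ) {A P : T} (hA : Sph 106 A) (hP : Sph 322 P)
    (θ : A ⟶ 𝟙_ T) (th : (CC D U (𝟙_ T)).D 2 106)
    (a : (A⟦(1 : ℤ)⟧)⟦(1 : ℤ)⟧ ≅ (𝟙_ T)⟦2 * 54⟧)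
    (hθ : (θ⟦(1 : ℤ)⟧')⟦(1 : ℤ)⟧' =
      a.hom ≫ eD U (𝟙_ T) e108 th ≫ U.bd 1 (𝟙_ T) ≫ (U.bd 0 (𝟙_ T))⟦(1 : ℤ)⟧')
    (hω : ∀ y, (CC D U M).j 0 4 y = cls D U i e4 v1 →
      (CC D U M).proj 322 (show 2 ≤ 6 by norm_num) (omega D U th y) = 0) :
    ∃ (X : T) (t : X ⟶ 𝟙_ T) (th₂ : A ⊗ A ⟶ X), Tr.AF η[H] 2 t ∧
      th₂ ≫ t = (θ ⊗ₘ θ) ≫ (λ_ _).hom ∧
      ∀ φ : P ⟶ (A ⊗ A ⊗ A) ⊗ M, φ ≫ ((θ ⊗ₘ th₂) ≫ (λ_ X).hom) ▷ M = 0 := by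
  obtain ⟨X, ⟨ε⟩⟩ : ∃ X : T, Nonempty ((X⟦(1 : ℤ)⟧)⟦(1 : ℤ)⟧ ≅ U.cobar.B 2 (𝟙_ T)) :=
    ⟨_, ⟨(shiftFunctor T (1 : ℤ) ⋙ shiftFunctor T (1 : ℤ)).objObjPreimageIso _⟩⟩
  obtain ⟨t, ht⟩ := exists_two (ε.hom ≫ U.bd 1 (𝟙_ T) ≫ (U.bd 0 (𝟙_ T))⟦(1 : ℤ)⟧')
  obtain ⟨Θ, hΘ⟩ := exists_two (a.hom ≫ eD U (𝟙_ T) e108 th ≫ ε.inv)
  have h1 : Θ ≫ t = θ := two_inj (by
    rw [Functor.map_comp, Functor.map_comp, hΘ, ht, hθ]
    simp only [Category.assoc, Iso.inv_hom_id_assoc])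
  have hb : ∀ s, Tr.Null η[H] (U.bd s (𝟙_ T)) := fun s =>
    St5.null_bd u (Dist.zero₃₁ (U.towerTriangle_distinguished s (𝟙_ T)))
  have s1 : SE θ (und th) := by
    refine (SE_two θ).trans ?_
    rw [hθ, ← sh_und_two (t₁ := 107) e108 (by norm_num) (by norm_num)]
    exact (SE.of_AI (AI.of_iso_comp _ _)).trans ((SE.sh _ _).trans (SE.sh _ _)).symm
  have s2 : SE Θ (eD U (𝟙_ T) e108 th) := by
    refine (SE_two Θ).trans ?_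
    rw [hΘ]
    exact SE.of_AI ((AI.of_iso_comp _ _).trans (AI.of_comp_iso _ ε.symm))
  refine ⟨X, t, (θ ⊗ₘ Θ) ≫ (λ_ X).hom, ?_, ?_, fun φ => ?_⟩
  · refine St5.af_of_shift (St5.af_of_shift ?_)
    rw [ht]
    exact (St5.af_two (hb 1) (St5.af_shift 1 (Tr.AF.of_null (hb 0))).null).pre _
  · rw [Category.assoc, ← leftUnitor_naturality, tensorHom_comp_whiskerLeft_assoc, h1]
  · have h3 : Sph 318 (A ⊗ A ⊗ A) := hA.ten (hA.ten hA 212 (by norm_num)) _ (by norm_num)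
    obtain ⟨c⟩ := hP
    obtain ⟨c'⟩ := h3.ten (b := 2 * 2) ⟨Iso.refl _⟩ 322 (by norm_num)
    obtain ⟨g, hg⟩ := h3.exists_wl (c'.hom ≫ c.inv ≫ φ)
    obtain ⟨y, hy⟩ := exists_v D U hM
    obtain ⟨m, hm⟩ := pi4_gen D U hM hy ((eD U (𝟙_ T) e4).symm g)
    rw [AddEquiv.symm_apply_eq, map_zsmul] at hm
    have h4 := (SE_omega D U th y).symm.eq_zero (by rw [hω y hy, map_zero])
    have h5 := ((SE.of_AI (AI_unit θ ((θ ⊗ₘ Θ) ≫ (λ_ X).hom))).trans (s1.tensor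
      ((SE.of_AI (AI_unit θ Θ)).trans (s1.tensor s2)))).tensor (SE.refl (eD U (𝟙_ T) e4 y))
    have h6 : (A ⊗ A ⊗ A) ◁ g = m • (A ⊗ A ⊗ A) ◁ eD U (𝟙_ T) e4 y :=
      hm ▸ (tensorLeft _).map_zsmul ..
    rw [← cancel_epi c.inv, ← cancel_epi c'.hom, reassoc_of% hg.symm, h6, comp_zero, comp_zero,
      Preadditive.zsmul_comp, ← tensorHom_def', h5.eq_zero h4, smul_zero]

/-- The map on the Moore object with a given bottom class. -/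
theorem fd_of_W {w₀ w : ℤ} (hw : w₀ + 1 = w) {C : T} {i : (stdEven T).S w₀ ⟶ C}
    {δ : C ⟶ ((stdEven T).S w₀)⟦(1 : ℤ)⟧} (hC : Dist ((3 : ℤ) • 𝟙 ((stdEven T).S w₀)) i δ)
    {h : Cob.wt Laz 1 w} (W : (stdEven T).S w ⟶ U.cobar.B 2 (𝟙_ T))
    (hW : (3 : ℤ) • W = D.evw 1 w h ≫ qq D U 1 ≫ U.cobar.k 1 (𝟙_ T)) :
    ∃ f : C ⟶ 𝟙_ T, St5.FD D U hw δ f h ∧ ((i ≫ f)⟦(1 : ℤ)⟧')⟦(1 : ℤ)⟧' =
      -((eS hw).inv ≫ W ≫ U.bd 1 (𝟙_ T) ≫ (U.bd 0 (𝟙_ T))⟦(1 : ℤ)⟧') := by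
  obtain ⟨F, h1, h2⟩ := hC.rot.rot.rot.rot.rot.map₁ (U.towerTriangle_distinguished 1 (𝟙_ T))
    ((eS hw).inv ≫ D.evw 1 w h ≫ qq D U 1) ((eS hw).inv ≫ W) (by
      simp only [Category.assoc]
      rw [← hW]
      simp)
  obtain ⟨f, hf⟩ := (shiftFunctor T (1 : ℤ)).map_surjective ((-F) ≫ U.bd 0 (𝟙_ T))
  refine ⟨f, ⟨-F, hf.symm, ?_⟩, ?_⟩
  · rw [Preadditive.neg_comp, ← h1, Preadditive.neg_comp, neg_neg]
  · rw [Functor.map_neg, neg_neg] at h2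
    rw [Functor.map_comp, hf, Functor.map_comp, Functor.map_comp, Functor.map_neg,
      Preadditive.neg_comp, Preadditive.comp_neg, reassoc_of% h2]

/-- `3 θ̃ = k h` in terms of the tower. -/
theorem three_eD {n m w : ℤ} (hn : n = m + 1) (h1 : n + ((1 : ℕ) : ℤ) = 2 * w)
    (h2 : m + ((1 + 1 : ℕ) : ℤ) = 2 * w) {h : Cob.wt Laz 1 w} {th : (CC D U (𝟙_ T)).D 2 m}
    (e : (3 : ℤ) • th = (CC D U (𝟙_ T)).k 1 n m hn (cls D U (𝟙 _) h1 h)) :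
    (3 : ℤ) • ((sα T w).hom ≫ eD U (𝟙_ T) h2 th) =
      D.evw 1 w h ≫ qq D U 1 ≫ U.cobar.k 1 (𝟙_ T) := by
  rw [← Preadditive.comp_zsmul, ← map_zsmul, e, eD_k hn h1 h2, eE_cls, CobarData.Qm_id,
    Category.id_comp, ph_apply, D.phi_apply, qq]
  simp only [Category.assoc, Iso.hom_inv_id_assoc]

end Gen

open Vale.Agent.P251.St St St5

theorem e107 : (107 : ℤ) + ((1 : ℕ) : ℤ) = 2 * Det.w0 2 := by norm_num [Det.w0]

/-- The core statement on the exact couples of the tower of `MU`. -/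
def CoreC : Prop :=
  ∀ (T : SHCat) (_ : Susp T) (D : MUData T.C) (U : UnitCof D.R) (t : Cob Laz 1), IsT1 3 t →
    ∀ (M : T.C) (i : 𝟙_ T.C ⟶ M) (δ : M ⟶ (𝟙_ T.C)⟦(1 : ℤ)⟧),
      Dist ((3 : ℤ) • 𝟙 (𝟙_ T.C)) i δ →
      ∃ (h : Cob.wt Laz 1 (Det.w0 2)) (x : Cob.wt Laz 2 (Det.w0 2)) (c : ℤ), ¬ (3 : ℤ) ∣ c ∧
        Nrm t 2 h x c ∧ ∃ th : (CC D U (𝟙_ T.C)).D 2 106,
          (3 : ℤ) • th = (CC D U (𝟙_ T.C)).k 1 107 106 rfl (cls D U (𝟙 _) e107 h) ∧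
          ∀ y : (CC D U M).D 0 4, (CC D U M).j 0 4 y = cls D U i e4 v1 →
            (CC D U M).proj 322 (show 2 ≤ 6 by norm_num) (omega D U th y) = 0

theorem kerv_of_coreC (hc : CoreC) : KERV 2 := by
  intro T S D U t ht
  obtain ⟨M, i, δ, hM⟩ := exists_cone ((3 : ℤ) • 𝟙 (𝟙_ T.C))
  obtain ⟨h, x, c, hc, hn, th, e, -⟩ := hc T S D U t ht M i δ hM
  exact ⟨h, x, c, hc, hn, _, three_eD D U rfl e107 e108 e⟩

/-- **The plumbing.** -/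
theorem core_of (h4 : PI4) (h0 : TAU0) (h3 : HI3) (hc : CoreC) : CoreStmt := by
  intro T S H' e he M i δ hM
  have := locallySmall_self.{0} T.C
  obtain ⟨H, _, _, hH⟩ := exists_HFmon S.toSpaceFunctor (p := 3) (by norm_num)
  obtain ⟨q, hq⟩ := exists_cmp S.toSpaceFunctor he hH
  obtain ⟨q', hq'⟩ := exists_cmp S.toSpaceFunctor hH he
  obtain ⟨D, hU⟩ := exists_mu S
  obtain ⟨U⟩ := exists_unitCof D.R
  obtain ⟨t, ht⟩ := T1 3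
  obtain ⟨u, hu⟩ := exists_thom D hH.conc
  obtain ⟨h, x, c, hc, hn, th, hth, hω⟩ := hc T S D U t ht M i δ hM
  obtain ⟨δ', hC⟩ : ∃ δ', Dist ((3 : ℤ) • 𝟙 _) ((St5.stemIso T 2).hom ≫ red i _) δ' :=
    ⟨_, Tr.dist_iso (dist_red hM _) (St5.stemIso T 2) (St5.stemIso T 2)
      (Iso.refl _) (by simp) (Category.comp_id _)⟩
  obtain ⟨f, hF, hf⟩ := fd_of_W D U (hw0 2) hC _ (three_eD D U rfl e107 e108 hth)
  let β₀ : (stdEven T.C).S 2 ≅ P236Z.St.sph T 4 := B.sphE T.C 2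
  have hξ : β₀.inv ≫ tau u ht ≠ 0 := fun h1 =>
    h0 T S H hH D hU u t ht ((Preadditive.IsIso.comp_left_eq_zero _ _).1 h1)
  obtain ⟨β, -⟩ := exists_big β₀ (2 + 1)
  refine ⟨f, fun h1 => hi1 f (fun g => ?_) _ (fun g => ?_)
    (hopf_frob S hH h4 h0 hU ht hξ hC hc hn hF) (h3 T S H hH _ hξ _) (hq ▸ af_cmp q h1), ?_⟩
  · obtain ⟨a, rfl⟩ := hC.rot.rot.rot.desc₃ g (by
      rw [← cancel_epi (eO _).inv, hH.conc _ (by omega) (_ ≫ _), comp_zero])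
    rw [← Iso.inv_hom_id_assoc (eS (hw0 2)) a, sph_zero hH (w0_ne 2) (_ ≫ a), comp_zero,
      comp_zero]
  · rw [← Iso.inv_hom_id_assoc β g, sph_zero hH (by positivity) (β.hom ≫ g), comp_zero]
  · have h5 : ((St5.stemIso T 2).hom ≫ red i _) ≫ f = (St5.stemIso T 2).hom ≫ botc i f := by
      rw [botc, red, Category.assoc, Category.assoc]
    rw [h5] at hf
    obtain ⟨a, ha⟩ := exists_src _ _ _ hf
    obtain ⟨X, t', th₂, k1, k2, k3⟩ := plumb D U u hM (A := P236Z.St.sph T (stem 2))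
      (P := P236Z.St.sph T (stem 3)) ⟨Iso.refl _⟩ ⟨Iso.refl _⟩ (botc i f) th a ha hω
    exact ⟨X, t', th₂, hq' ▸ af_cmp q' k1, k2, k3⟩

end Vale.Agent.P236K.D3
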