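import Vale.Agent.P236K.D3.Main

/-!
# P236, block D3: the cyclic extended cube (`wStmt_of`)
-/

open CategoryTheory MonoidalCategory Limits Pretriangulated
open Functor.LaxMonoidal Functor.OplaxMonoidal
open Vale.Agent.P251 Vale.Agent.P251.T Vale.Agent.P251.H Vale.Agent.P251.I Vale.Agent.P251.M
open Vale.Agent.P236Z Vale.Agent.P236Z.Cat Vale.Agent.P236Z.Tr

universe v u

set_option linter.unusedSectionVars false

noncomputable section

namespace Vale.Agent.P236K.D3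

section cube

variable {T : Type u} [Category.{v} T] [Preadditive T] [HasZeroObject T]
    [HasShift T ℤ] [∀ n : ℤ, (shiftFunctor T n).Additive] [Pretriangulated T] [IsTriangulated T]
    [MonoidalCategory T] [SymmetricCategory T] [TensorTriangulated T]

theorem cof_cube {D E D' : ℤ → Prop} {X Y : T} {g : X ⟶ Y} (hg : CofIn (Cell D) g) (hX : Cell E X)
    (hY : Cell E Y) (h : ∀ d e e', D d → E e → E e' → D' (e + (e' + d))) :
    CofIn (Cell D') (g ⊗ₘ g ⊗ₘ g) := by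
  let F : ℤ → Prop := fun k => ∃ d e, D d ∧ E e ∧ k = e + d
  have hF : ∀ {A : T}, Cell E A → ∀ B : T, Cell D B → Cell F (A ⊗ B) := fun hA B hB =>
    cell_tensor hA hB fun e d he hd => ⟨d, e, hd, he, rfl⟩
  have h1 : CofIn (Cell F) (g ⊗ₘ g) := by
    rw [MonoidalCategory.tensorHom_def]
    exact (hg.whiskerRight (Cell.extClosed _) X (hF hX)).comp (Cell.extClosed _)
      (hg.whiskerLeft Y (hF hY))
  rw [MonoidalCategory.tensorHom_def]
  refine (hg.whiskerRight (Cell.extClosed _) (X ⊗ X) fun B hB => ?_).comp (Cell.extClosed _)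
    (h1.whiskerLeft Y fun B hB => cell_tensor hY hB ?_)
  · refine (cell_tensor hX (hF hX B hB) ?_).iso (α_ _ _ _).symm
    rintro e _ he ⟨d, e', hd, he', rfl⟩
    exact h d e e' hd he he'
  · rintro e _ he ⟨d, e', hd, he', rfl⟩
    exact h d e e' hd he he'

end cube

variable {W : Tower}

theorem nr_eq (X : W.T₁.C) : nr W X = 𝟙 _ + W.s₁.γ X + W.s₁.γ X ≫ W.s₁.γ X := by
  have h3 : W.s₁.γ X ≫ W.s₁.γ X ≫ W.s₁.γ X = 𝟙 _ := W.s₁.γ_cube X
  have h1 : W.s₁.γ' X = W.s₁.γ X ≫ W.s₁.γ X := by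
    rw [← cancel_epi (W.s₁.γ X), h3, Step.γ_γ']
  rw [nr, h1, Category.assoc, reassoc_of% h3, add_right_comm]

@[reassoc]
theorem nr_nat {X Y : W.T₁.C} (m : X ⟶ Y) : (UU W).map m ≫ nr W Y = nr W X ≫ (UU W).map m := by
  simp only [nr, Preadditive.add_comp, Preadditive.comp_add, Category.assoc, Category.id_comp,
    Category.comp_id, Step.γ'_nat, Step.γ'_nat_assoc]

variable (W) in
/-- the restriction of a norm -/
def nu (Y : W.T₀.C) : (UU W).obj (W.s₁.N.obj Y) ≅ Y ⊗ Y ⊗ Y := W.s₁.ν.app Y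

@[reassoc]
theorem nu_nat {X Y : W.T₀.C} (f : X ⟶ Y) :
    (UU W).map (W.s₁.N.map f) ≫ (nu W Y).hom = (nu W X).hom ≫ (f ⊗ₘ f ⊗ₘ f) :=
  W.s₁.ν.hom.naturality f

@[reassoc]
theorem nu_nr (Y : W.T₀.C) : nr W (W.s₁.N.obj Y) ≫ (nu W Y).hom = (nu W Y).hom ≫ nrm Y := by
  have h : W.s₁.γ (W.s₁.N.obj Y) ≫ (nu W Y).hom = (nu W Y).hom ≫ rot Y Y Y :=
    (W.s₁.ν_h Y).trans (by simp [Tw.rot, Tw.id, nu])
  simp only [nr_eq, nrm, Preadditive.add_comp, Preadditive.comp_add, Category.assoc,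
    Category.id_comp, Category.comp_id, h, reassoc_of% h]

@[reassoc]
theorem nr_shift (X : W.T₁.C) : nr W (X⟦(1 : ℤ)⟧) ≫ ((UU W).commShiftIso (1 : ℤ)).hom.app X =
    ((UU W).commShiftIso (1 : ℤ)).hom.app X ≫ (nr W X)⟦(1 : ℤ)⟧' := by
  have h : W.s₁.γ (X⟦(1 : ℤ)⟧) ≫ ((UU W).commShiftIso (1 : ℤ)).hom.app X =
      ((UU W).commShiftIso (1 : ℤ)).hom.app X ≫ (W.s₁.γ X)⟦(1 : ℤ)⟧' := by
    rw [Step.γ, hh_shift]
    exact (UU W).commShiftIso_hom_naturality _ _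
  simp [nr_eq, h, reassoc_of% h]

variable (W) in
/-- the norm of the unit -/
def eN : (tv W).obj (𝟙_ _) ≅ W.s₁.N.obj (𝟙_ _) :=
  (Functor.Monoidal.εIso (tv W)).symm ≪≫ Functor.Monoidal.εIso W.s₁.N

theorem eN_nu : (UU W).map (eN W).hom ≫ (nu W _).hom ≫ un3 _ = (tu W _).hom := by
  have h1 : (ε (UU W) ≫ (UU W).map (ε W.s₁.N)) ≫ (nu W _).hom = ε (cube W.T₀.C) :=
    W.s₁.ν_mon.unit
  have h2 : (ε (UU W) ≫ (UU W).map (ε (tv W))) ≫ (tu W _).hom = 𝟙 _ := W.s₁.tvU_mon.unit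
  rw [← cancel_epi (ε (UU W) ≫ (UU W).map (ε (tv W))), h2, Category.assoc,
    ← Functor.map_comp_assoc]
  simp only [eN, Iso.trans_hom, Iso.symm_hom, Functor.Monoidal.εIso_inv, Functor.Monoidal.εIso_hom,
    Functor.Monoidal.ε_η_assoc]
  rw [reassoc_of% h1, cube_ε, un3]
  simp

/-- The cyclic extended cube. -/
theorem wStmt_of (hD : Diag W) (hc : W.s₁.Cel) (hL : Low W.T₀.C) (hN : NsStmt W.T₀.C) :
    WStmt W.T₀.C := by
  intro n Z C A B H K A' V f i π x y η P u c x' y' hn D hA hM hM' hH hK hu hP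
  obtain ⟨k⟩ := exists_sk hc hL
  obtain ⟨Y, j, p, c₀, ω, DY, e₁, e₂⟩ := hD Z C f i π D
  obtain ⟨s, s₁, s₂⟩ := hN hL (n + 1) A _ B A' V x y x' y' hA hM hM'
  have cQ : Cell (fun k => n + 1 ≤ k ∧ k ≤ n + 2) (Z⟦(1 : ℤ)⟧) :=
    hM.cell hA (by omega) (by omega)
  have cZ : Cell (n ≤ ·) Z :=
    (cQ.shift (-1) fun k hk => by omega).iso (shiftShiftNeg Z (1 : ℤ))
  have cC : Cell (fun k => 0 ≤ k ∧ k ≤ n + 2) C :=
    Cell.ext D.rot (sph_unit.cell (by omega)) (cQ.mono fun k hk => by omega)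
  have sB := hM.top hA
  have sB3 : Sph (3 * n + 5 + 1) (B ⊗ B ⊗ B) := sB.ten (sB.ten sB _ rfl) _ (by ring)
  let a : (UU W).obj ((W.s₁.N.obj Z)⟦(1 : ℤ)⟧) ≅ (Z ⊗ Z ⊗ Z)⟦(1 : ℤ)⟧ :=
    ((UU W).commShiftIso (1 : ℤ)).app _ ≪≫ (shiftFunctor _ (1 : ℤ)).mapIso (nu W Z)
  have D' := dist_iso DY.rot (eN W) (Iso.refl _) (Iso.refl _) (f' := (eN W).hom ≫ j) (g' := p)
    (by simp) (by simp)
  have f₁ : (UU W).map (((eN W).hom ≫ j) ≫ c₀) =
      ((UU W).mapIso (eN W) ≪≫ nu W _).hom ≫ (i ⊗ₘ i ⊗ₘ i) ≫ (nu W C).symm.hom := by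
    rw [Category.assoc, e₁, Functor.map_comp, Iso.trans_hom, Category.assoc, ← nu_nat_assoc]
    simp
  have f₂ : (UU W).map (W.s₁.N.map π ≫ ω.inv) =
      (nu W C).hom ≫ (π ⊗ₘ π ⊗ₘ π) ≫ ((nu W _).symm ≪≫ (UU W).mapIso ω.symm).hom := by
    rw [Functor.map_comp, ← nu_nat_assoc]
    simp
  obtain ⟨W', C', ι, ρ, φ, i', π', g, T₁, T₂, w₁, w₂, w₃⟩ := k.wabs (m := 3 * n + 6) (V := V) D' c₀
    (W.s₁.N.map π ≫ ω.inv) (by rw [reassoc_of% e₂]; simp) η P hH hK (by omega)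
    (((cell_tensor cZ (cell_tensor cZ cZ (D'' := (n ≤ ·)) fun d e hd he => by omega)
      (D'' := (n ≤ ·)) fun d e hd he => by omega).shift 1 fun k hk => by omega).iso a.symm)
    (hM'.cell (hM'.bot sB3) (by omega) (by omega))
    (f₁ ▸ CofIn.iso_comp (Cell.extClosed _) _ (CofIn.comp_iso (Cell.extClosed _) _
      (cof_cube ⟨_, _, _, D.rot, cQ⟩ (sph_unit.cell (by omega)) cC
        fun d e e' hd he he' => by omega)))
    (f₂ ▸ CofIn.iso_comp (Cell.extClosed _) _ (CofIn.comp_iso (Cell.extClosed _) _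
      (cof_cube ⟨_, _, _, D.rot.rot, (sph_unit.shift 1 1 rfl).cell (D := (· = 1)) rfl⟩ cC
        (cQ.mono fun k hk => by omega) fun d e e' hd he he' => by omega)))
    ((nu W C).hom ≫ u) (by
      rw [f₁, ← eN_nu]
      simp [hu])
    ((UU W).map ω.hom ≫ (nu W _).hom ≫ (y ⊗ₘ y ⊗ₘ y) ≫ c) (by
      rw [f₂, Category.assoc, hP]
      simp [← Functor.map_comp_assoc, tensorHom_comp_tensorHom_assoc])
    (s ≫ (nu W _).inv ≫ (UU W).map ω.inv) (by
      rw [Category.assoc, Category.assoc, nr_nat, ← cancel_mono ((UU W).map ω.hom ≫ (nu W _).hom)]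
      simp [← Functor.map_comp_assoc, nu_nr, s₂])
  refine ⟨W', C', a.inv ≫ ι, -ρ, _, i', -π', -g, dist_iso (Dist.neg₂₃ T₁) a.symm (Iso.refl _)
    (Iso.refl _) (by simp) (by simp), Dist.neg₂₃ T₂, ?_, ?_, fun u' hu' => ?_⟩
  · rw [Category.assoc, Preadditive.comp_neg, w₁, Iso.inv_comp_eq, ← eN_nu, Step.dn]
    simp only [a, m3, Iso.refl_hom, Category.id_comp, Preadditive.neg_comp, Functor.map_neg,
      neg_neg, ← Functor.map_comp, Category.assoc, Functor.commShiftIso_hom_naturality_assoc,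
      Iso.trans_hom, Iso.app_hom, Functor.mapIso_hom]
    rw [← Functor.map_comp_assoc, Category.assoc, Iso.inv_hom_id, Category.comp_id, nu_nat_assoc]
  · have h : a.hom ≫ (nrm Z)⟦(1 : ℤ)⟧' = nr W _ ≫ a.hom := by
      simp only [a, Iso.trans_hom, Iso.app_hom, Functor.mapIso_hom, Category.assoc, nr_shift_assoc,
        ← Functor.map_comp, nu_nr]
    simp only [Iso.refl_hom, Category.id_comp, Iso.symm_inv, Category.assoc, ← Functor.map_comp, h]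
    rw [Functor.map_comp, Preadditive.neg_comp, reassoc_of% w₂, zero_comp, neg_zero]
  · rw [w₃ u' hu', ← s₁]
    simp [← Functor.map_comp_assoc]

end Vale.Agent.P236K.D3
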