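import Vale.Agent.P236K.D3.Orb
import Vale.Agent.P236Z.Cat.Wir2
import Vale.Agent.P251.S.ModP

/-!
# P236, block D3: the two-skeleton `E` of the universal free space and the operation on `Y ⊗ E`
-/

open CategoryTheory MonoidalCategory Limits Pretriangulated
open Functor.LaxMonoidal Functor.OplaxMonoidal
open Vale.Agent.P251 Vale.Agent.P251.T Vale.Agent.P251.H Vale.Agent.P251.I Vale.Agent.P251.M
open Vale.Agent.P236Z Vale.Agent.P236Z.Cat Vale.Agent.P236Z.Tr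

universe v u

set_option linter.unusedSectionVars false

noncomputable section

namespace Vale.Agent.P236K.D3

section rs

variable {T : Type u} [Category.{v} T] [Preadditive T] [HasZeroObject T]
    [HasShift T ℤ] [∀ n : ℤ, (shiftFunctor T n).Additive] [Pretriangulated T]
    [MonoidalCategory T] [SymmetricCategory T] [TensorTriangulated T]

/-- `A⟦1⟧ ⊗ E ⟶ (A ⊗ E)⟦1⟧` -/
def rs (A E : T) : A⟦(1 : ℤ)⟧ ⊗ E ⟶ (A ⊗ E)⟦(1 : ℤ)⟧ :=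
  ((tensorRight E).commShiftIso (1 : ℤ)).hom.app A

/-- `X ⊗ A⟦1⟧ ⟶ (X ⊗ A)⟦1⟧` -/
def ls (X A : T) : X ⊗ A⟦(1 : ℤ)⟧ ⟶ (X ⊗ A)⟦(1 : ℤ)⟧ :=
  ((tensorLeft X).commShiftIso (1 : ℤ)).hom.app A

theorem distR {X Y Z : T} {f : X ⟶ Y} {g : Y ⟶ Z} {h : Z ⟶ X⟦(1 : ℤ)⟧} (D : Dist f g h) (E : T) :
    Dist (f ▷ E) (g ▷ E) (h ▷ E ≫ rs X E) := S.dist_whiskerRight E D

theorem distL {X Y Z : T} {f : X ⟶ Y} {g : Y ⟶ Z} {h : Z ⟶ X⟦(1 : ℤ)⟧} (D : Dist f g h) (E : T) :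
    Dist (E ◁ f) (E ◁ g) (E ◁ h ≫ ls E X) := S.dist_whiskerLeft E D

@[reassoc]
theorem ls_nat (X : T) {A B : T} (f : A ⟶ B) :
    X ◁ f⟦(1 : ℤ)⟧' ≫ ls X B = ls X A ≫ (X ◁ f)⟦(1 : ℤ)⟧' :=
  (tensorLeft X).commShiftIso_hom_naturality f (1 : ℤ)

theorem rs_ρ (A : T) {E : T} (ε : E ⟶ 𝟙_ T) :
    rs A E ≫ (A ◁ ε ≫ (ρ_ A).hom)⟦(1 : ℤ)⟧' = A⟦(1 : ℤ)⟧ ◁ ε ≫ (ρ_ _).hom := by
  have h1 : rs A E ≫ (A ◁ ε)⟦(1 : ℤ)⟧' = A⟦(1 : ℤ)⟧ ◁ ε ≫ rs A (𝟙_ T) :=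
    NatTrans.shift_app_comm (S.trMap ε) (1 : ℤ) A
  have h2 : (ρ_ A).inv⟦(1 : ℤ)⟧' = (ρ_ _).inv ≫ rs A (𝟙_ T) := by
    simpa [rs] using NatTrans.shift_app_comm (S.redC (𝟙 (𝟙_ T))) (1 : ℤ) A
  rw [Functor.map_comp, reassoc_of% h1, (Iso.inv_comp_eq _).1 h2.symm, Category.assoc,
    ← Functor.map_comp, Iso.inv_hom_id, CategoryTheory.Functor.map_id, Category.comp_id]

end rs

variable (W : Tower)

/-- the circle -/
abbrev A1 : W.T₀.C := (𝟙_ W.T₀.C)⟦(1 : ℤ)⟧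

/-- the two-sphere -/
abbrev A2 : W.T₀.C := (A1 W)⟦(1 : ℤ)⟧

/-- the rotation sphere -/
abbrev LL : W.T₁.C := W.s₁.Lr

/-- the norm on the underlying object -/
def nr (X : W.T₁.C) : (UU W).obj X ⟶ (UU W).obj X := 𝟙 _ + W.s₁.γ' X + W.s₁.γ' X ≫ W.s₁.γ' X

/-- The skeleta `P`, `E` of the universal free space and the sphere `T` of twice the rotation
representation. -/
structure Sk where
  /-- the one-skeleton -/
  P : W.T₁.C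
  /-- the two-skeleton -/
  E : W.T₁.C
  /-- the target -/
  T : W.T₁.C
  /-- the zero-cell -/
  e₀ : (ind W).obj (𝟙_ _) ⟶ P
  /-- the one-cell -/
  e₁ : P ⟶ (ind W).obj (A1 W)
  /-- its attaching map -/
  d₁ : (ind W).obj (A1 W) ⟶ ((ind W).obj (𝟙_ _))⟦(1 : ℤ)⟧
  D₁ : Dist e₀ e₁ d₁
  /-- the inclusion -/
  eP : P ⟶ E
  /-- the two-cell -/
  e₂ : E ⟶ (ind W).obj (A2 W)
  /-- its attaching map -/
  d₂ : (ind W).obj (A2 W) ⟶ P⟦(1 : ℤ)⟧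
  D₂ : Dist eP e₂ d₂
  /-- the comparison of shifts -/
  ι₂ : (ind W).obj (A2 W) ⟶ ((ind W).obj (A1 W))⟦(1 : ℤ)⟧
  hd : d₂ ≫ e₁⟦(1 : ℤ)⟧' = (𝟙 _ + (hh W _).hom + (hh W _).hom ≫ (hh W _).hom) ≫ ι₂
  /-- the augmentation -/
  t : T ⟶ 𝟙_ _
  /-- the map to the target -/
  l : E ⟶ T
  /-- the zero-cell of the target -/
  eT : (ind W).obj (𝟙_ _) ⟶ T
  he : e₀ ≫ eP ≫ l ≫ t = W.s₁.oe
  hT : eT ≫ t = W.s₁.oe
  /-- the fundamental class -/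
  fr : A2 W ≅ (UU W).obj (LL W)
  /-- the fundamental class on the zero-cell -/
  r : (ind W).obj (A2 W) ⟶ LL W ⊗ (ind W).obj (𝟙_ _)
  hr : W.s₁.un _ ≫ (UU W).map r = fr.hom ≫ (ρ_ _).inv ≫ unX W (LL W) (𝟙_ _)
  star : l ≫ (λ_ T).inv ≫ W.s₁.ar ▷ T = e₂ ≫ r ≫ LL W ◁ eT
  frE : Fr W (fun k => 0 ≤ k ∧ k ≤ 2) E
  frT : Fr W (fun k => 0 ≤ k ∧ k ≤ 3) T
  γL : W.s₁.γ' (LL W) = 𝟙 _

variable {W}

@[reassoc]
theorem unX_oe (X : W.T₁.C) : unX W X (𝟙_ _) ≫ (UU W).map (X ◁ W.s₁.oe ≫ (ρ_ X).hom) =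
    (ρ_ _).hom := by
  rw [Functor.map_comp, unX_right_assoc, W.s₁.un_oe]
  exact (Functor.LaxMonoidal.right_unitality (UU W) X).symm

theorem sph_A1 : Sph 1 (A1 W) := sph_unit.shift 1 1 rfl

theorem sph_A2 : Sph 2 (A2 W) := sph_A1.shift 1 2 rfl

theorem exists_sk (hc : W.s₁.Cel) (hL : Low W.T₀.C) : Nonempty (Sk W) := by
  obtain ⟨⟨r₀, ⟨P, e₀, e₁, p, b, D₁, D₂, he, hr⟩, hi⟩, hγ⟩ := hc
  let κ : (ind W).obj (A2 W) ⟶ (W.s₁.O⟦(1 : ℤ)⟧)⟦(1 : ℤ)⟧ :=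
    (W.s₁.ci _).hom ≫ (W.s₁.ci _).hom⟦(1 : ℤ)⟧'
  have hf : W.s₁.flat2 r₀ = W.s₁.un _ ≫ (UU W).map (κ ≫ r₀) := by
    rw [Step.flat2_def, Step.un_shift, Functor.map_comp, Category.assoc,
      Functor.commShiftIso_inv_naturality_assoc, reassoc_of% W.s₁.un_shift]
    simp [κ]
  obtain ⟨r, hr0⟩ : ∃ r, r = κ ≫ r₀ := ⟨_, rfl⟩
  rw [← hr0] at hf
  let fr : A2 W ≅ (UU W).obj (LL W) := asIso (W.s₁.flat2 r₀)
  have hfr : fr.hom = W.s₁.un _ ≫ (UU W).map r := hf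
  have D₁' := dist_iso D₁.rot (Iso.refl _) (Iso.refl _) (W.s₁.ci (𝟙_ _)) (f' := e₀)
    (g' := e₁ ≫ (W.s₁.ci (𝟙_ _)).inv) (by simp) (by simp)
  have hd : (r ≫ b) ≫ (e₁ ≫ (W.s₁.ci (𝟙_ _)).inv)⟦(1 : ℤ)⟧' =
      (𝟙 _ + (hh W _).hom + (hh W _).hom ≫ (hh W _).hom) ≫ (W.s₁.ci _).hom := by
    have h1 : ((∑ i ∈ Finset.range 3, Dt.pw (W.L₁.t.h W.s₁.O).hom i)⟦(1 : ℤ)⟧')⟦(1 : ℤ)⟧' =
        𝟙 _ + (hh W _).hom + (hh W _).hom ≫ (hh W _).hom := by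
      simp [Finset.sum_range_succ, Dt.pw, hh_shift]
    have h2 : κ ≫ (hh W _).hom = (hh W _).hom ≫ κ := W.L₁.t.nat κ
    have h3 : κ ≫ (W.s₁.ci (𝟙_ _)).inv⟦(1 : ℤ)⟧' = (W.s₁.ci _).hom := by
      simp [κ, ← Functor.map_comp]
    rw [hr0, Functor.map_comp, Category.assoc, Category.assoc, reassoc_of% hr, h1, ← h3]
    simp only [Preadditive.add_comp, Preadditive.comp_add, Category.assoc, Category.id_comp,
      reassoc_of% h2]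
  obtain ⟨E, eP, e₂, DE⟩ := exists_mid (r ≫ b)
  obtain ⟨ε, hε₁, hε₂⟩ := DE.map₂ D₂ (𝟙 P) r (by simp)
  rw [Category.id_comp] at hε₁
  obtain ⟨T, t, bT, DT⟩ := exists_fibre (W.s₁.ar ≫ (ρ_ (LL W)).inv ≫ LL W ◁ W.s₁.ar)
  have sL : Sph 2 ((UU W).obj (LL W)) := sph_A2.iso fr.symm
  have sLL : Sph 4 ((UU W).obj (LL W ⊗ LL W)) :=
    (sL.ten sL 4 rfl).iso (Functor.Monoidal.μIso (UU W) _ _).symm
  have sL3 : Sph 6 ((UU W).obj (LL W ⊗ LL W ⊗ LL W)) :=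
    (sL.ten sLL 6 rfl).iso (Functor.Monoidal.μIso (UU W) _ _).symm
  have fP : Fr W (fun k => 0 ≤ k ∧ k ≤ 1) P :=
    Fr.ext D₁' (Fr.ind (sph_unit.cell (by simp))) (Fr.ind (sph_A1.cell (by simp)))
  have fE : Fr W (fun k => 0 ≤ k ∧ k ≤ 2) E :=
    Fr.ext DE (fP.mono fun k hk => by omega) (Fr.ind (sph_A2.cell (by simp)))
  have fT : Fr W (fun k => 0 ≤ k ∧ k ≤ 3) T := by
    have f1 : Fr W (fun k => 1 ≤ k ∧ k ≤ 2) (P⟦(1 : ℤ)⟧) := fP.shift 1 fun k hk => by omega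
    have c1 : CofIn (Fr W fun k => 1 ≤ k ∧ k ≤ 4) W.s₁.ar :=
      ⟨_, _, _, D₂.rot, f1.mono fun k hk => by omega⟩
    have c2 : CofIn (Fr W fun k => 1 ≤ k ∧ k ≤ 4) ((ρ_ (LL W)).inv ≫ LL W ◁ W.s₁.ar) :=
      CofIn.iso_comp (Fr.extClosed _) (ρ_ (LL W)).symm ⟨_, _, _, distL D₂.rot (LL W),
        Fr.tensor (sL.cell (D := (· = 2)) rfl) f1 fun d e hd he => by omega⟩
    have f2 := CofIn.of_dist (Fr.extClosed _) DT.rot (c1.comp (Fr.extClosed _) c2)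
    exact (f2.shift (-1) fun k hk => by omega).iso (shiftShiftNeg T (1 : ℤ))
  obtain ⟨l, hl⟩ := DT.lift₂ ε (by
    rw [← reassoc_of% hε₂, Fr.ind (sph_A2.cell (D := (· = 2)) rfl) _
      ((hL.piZ (sLL.cell (D := (· = 4)) rfl) fun k hk => hk.ge).mono fun k hk => by omega)
      (r ≫ _), comp_zero])
  obtain ⟨eT, hT⟩ := DT.lift₂ W.s₁.oe (by
    rw [← he, Category.assoc, reassoc_of% D₂.zero₁₂, zero_comp, comp_zero])
  obtain ⟨r', hr'⟩ := W.s₁.ind_lift (fr.hom ≫ (ρ_ _).inv ≫ unX W (LL W) (𝟙_ _))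
  have h4 : r' ≫ LL W ◁ W.s₁.oe = r ≫ (ρ_ _).inv := by
    rw [Iso.eq_comp_inv, Category.assoc]
    refine W.s₁.un_ext ?_
    rw [Functor.map_comp, reassoc_of% hr', unX_oe, Iso.inv_hom_id, Category.comp_id, hfr]
  refine ⟨⟨P, E, T, e₀, _, _, D₁', eP, e₂, _, DE, _, hd, t, l, eT, ?_, hT, fr, r', hr', ?_, fE, fT,
    ?_⟩⟩
  · rw [hl, hε₁, he]
  · rw [← sub_eq_zero]
    refine zero₁ (distL DT (LL W)) (fun w => (fE.shift 1 (D' := (· < 6)) fun k hk => by omega) _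
      (hL.piZ (sL3.cell (D := (· = 6)) rfl) fun k hk => hk.ge) w) _ ?_
    rw [Preadditive.sub_comp, sub_eq_zero, Category.assoc, Category.assoc, Category.assoc,
      Category.assoc, ← whisker_exchange, ← leftUnitor_inv_naturality_assoc, reassoc_of% hl,
      ← MonoidalCategory.whiskerLeft_comp, hT, h4, reassoc_of% hε₂, unitors_inv_equal,
      rightUnitor_inv_naturality]
  · rw [← Category.id_comp (W.s₁.γ' _), ← hγ, Step.γ_γ', hγ]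

namespace Sk

variable (k : Sk W)

/-- the augmentation of the two-skeleton -/
def ε : k.E ⟶ 𝟙_ _ := k.l ≫ k.t

/-- the underlying object of `X ⊗ L` -/
def κ (X : W.T₁.C) : (UU W).obj X ⊗ A2 W ≅ (UU W).obj (X ⊗ LL W) :=
  whiskerLeftIso _ k.fr ≪≫ Functor.Monoidal.μIso (UU W) X (LL W)

@[reassoc]
theorem κ_nr (X : W.T₁.C) : nr W X ▷ A2 W ≫ (k.κ X).hom = (k.κ X).hom ≫ nr W (X ⊗ LL W) := by
  have h1 : μ (UU W) X (LL W) ≫ W.s₁.γ' (X ⊗ LL W) =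
      W.s₁.γ' X ▷ (UU W).obj (LL W) ≫ μ (UU W) X (LL W) := by
    rw [← cancel_mono (δ (UU W) X (LL W)), Category.assoc, Step.γ'_δ, k.γL]
    simp
  have h2 : W.s₁.γ' X ▷ A2 W ≫ (k.κ X).hom = (k.κ X).hom ≫ W.s₁.γ' (X ⊗ LL W) := by
    simp only [κ, Iso.trans_hom, whiskerLeftIso_hom, Functor.Monoidal.μIso_hom, Category.assoc, h1,
      whisker_exchange_assoc]
  simp only [nr, MonoidalPreadditive.add_whiskerRight, Preadditive.add_comp, Preadditive.comp_add,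
    id_whiskerRight, Category.id_comp, Category.comp_id, comp_whiskerRight, Category.assoc, h2,
    reassoc_of% h2]

/-- The operation `P` on the unit class of `Y ⊗ E` is concentrated on the two-cell. -/
theorem hopf {m : ℤ} {Y X C : W.T₁.C} {H K : W.T₀.C} (j : (tv W).obj (𝟙_ _) ⟶ Y) (p : Y ⟶ X)
    (c : Y ⟶ C) (π : C ⟶ X ⊗ LL W) (hc : c ≫ π = p ≫ (ρ_ X).inv ≫ X ◁ W.s₁.ar)
    (η : 𝟙_ _ ⟶ H) (P : H ⟶ K) (hH : PiZ (0 < ·) H) (hK : PiZ (· < m) K)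
    (h1 : CofIn (Cell (2 ≤ ·)) ((UU W).map (j ≫ c)))
    (h2 : CofIn (Cell (· ≤ m - 4)) ((UU W).map π)) (u : (UU W).obj C ⟶ H)
    (hu : (UU W).map (j ≫ c) ≫ u = (tu W _).hom ≫ η) (ψ : (UU W).obj (X ⊗ LL W) ⟶ K)
    (hψ : u ≫ P = (UU W).map π ≫ ψ) :
    ∃ (uY : Y ⊗ k.E ⟶ (tv W).obj H) (Ψ : X ⊗ (ind W).obj (A2 W) ⟶ (tv W).obj K),
      j ▷ k.E ≫ uY = (_ ◁ k.ε ≫ (ρ_ _).hom) ≫ (tv W).map η ∧
      uY ≫ (tv W).map P = p ▷ k.E ≫ X ◁ k.e₂ ≫ Ψ ∧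
      unX W X (A2 W) ≫ (UU W).map Ψ = ((k.κ X).hom ≫ ψ) ≫ (tu W K).inv := by
  obtain ⟨R₁, q₁, d₁, D₁⟩ := exists_cone (j ≫ c)
  obtain ⟨R₂, q₂, d₂, D₂⟩ := exists_cone π
  have c₁ := CofIn.of_dist (Cell.extClosed _) (W.s₁.dist_dn D₁) h1
  have c₂ := CofIn.of_dist (Cell.extClosed _) (W.s₁.dist_dn D₂) h2
  have sh : ∀ {D : ℤ → Prop} {B : W.T₀.C}, PiZ D (B⟦(1 : ℤ)⟧) →
      PiZ D ((UU W).obj (((tv W).obj B)⟦(1 : ℤ)⟧)) := fun {D B} h =>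
    h.iso (((UU W).commShiftIso (1 : ℤ)).app _ ≪≫ (shiftFunctor _ (1 : ℤ)).mapIso (tu W B))
  obtain ⟨uT, huT⟩ := ext₁ (distR D₁ k.T) ((_ ◁ k.t ≫ (ρ_ _).hom) ≫ (tv W).map η)
    (Fr.tensor c₁ k.frT (D'' := (2 ≤ ·)) (fun d e hd he => by omega) _
      (sh (hH.shift 1 fun k hk => by omega)) _)
  obtain ⟨Ψ, hΨ⟩ := ext₁ (distR D₂ k.T) (uT ≫ (tv W).map P)
    (Fr.tensor c₂ k.frT (D'' := (· ≤ m)) (fun d e hd he => by omega) _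
      (sh (hK.shift 1 fun k hk => by omega)) _)
  have e₁ : (ρ_ _).inv ≫ unX W C (𝟙_ _) ≫ (UU W).map (C ◁ k.eT ≫ uT) ≫ (tu W H).hom = u := by
    refine inj₂ (W.s₁.dist_dn D₁) (cell_zero c₁ hH fun k hk => by omega) ?_
    rw [hu, rightUnitor_inv_naturality_assoc, ← unX_left_assoc, ← Functor.map_comp_assoc,
      ← whisker_exchange_assoc, huT, Category.assoc, ← MonoidalCategory.whiskerLeft_comp_assoc,
      k.hT, ← Category.assoc (_ ◁ W.s₁.oe), Functor.map_comp, Category.assoc, unX_oe_assoc,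
      Iso.inv_hom_id_assoc, ← cancel_epi (tu W _).inv, tu_nat_assoc]
    simp
  have e₂ : (ρ_ _).inv ≫ unX W (X ⊗ LL W) (𝟙_ _) ≫ (UU W).map ((X ⊗ LL W) ◁ k.eT ≫ Ψ) ≫
      (tu W K).hom = ψ := by
    refine inj₂ (W.s₁.dist_dn D₂) (cell_zero c₂ hK fun k hk => by omega) ?_
    have h3 : (UU W).map ((tv W).map P) ≫ (tu W K).hom = (tu W H).hom ≫ P := by
      rw [← cancel_epi (tu W _).inv, tu_nat_assoc]
      simp
    rw [← hψ, ← e₁, rightUnitor_inv_naturality_assoc, ← unX_left_assoc, ← Functor.map_comp_assoc,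
      ← whisker_exchange_assoc, hΨ, ← Category.assoc (C ◁ k.eT), Functor.map_comp, Category.assoc,
      h3]
    simp only [Category.assoc]
  refine ⟨(c ⊗ₘ k.l) ≫ uT, X ◁ (k.r ≫ LL W ◁ k.eT) ≫ (α_ _ _ _).inv ≫ Ψ, ?_, ?_, ?_⟩
  · rw [MonoidalCategory.tensorHom_def, Category.assoc, ← comp_whiskerRight_assoc, ← whisker_exchange_assoc, huT, ε]
    simp only [MonoidalCategory.whiskerLeft_comp, Category.assoc]
  · rw [Category.assoc, ← hΨ, ← MonoidalCategory.whiskerLeft_comp_assoc, ← k.star,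
      MonoidalCategory.tensorHom_def,
      Category.assoc, whisker_exchange_assoc, ← comp_whiskerRight_assoc, hc]
    have h4 : ((ρ_ X).inv ≫ X ◁ W.s₁.ar) ▷ k.T =
        X ◁ ((λ_ k.T).inv ≫ W.s₁.ar ▷ k.T) ≫ (α_ _ _ _).inv := by monoidal
    rw [comp_whiskerRight, Category.assoc, ← whisker_exchange_assoc, h4]
    simp only [MonoidalCategory.whiskerLeft_comp, Category.assoc]
  · rw [← e₂, MonoidalCategory.whiskerLeft_comp, Category.assoc, Functor.map_comp,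
      unX_right_assoc, k.hr, associator_inv_naturality_right_assoc, Functor.map_comp]
    simp only [κ, Iso.trans_hom, whiskerLeftIso_hom, Functor.Monoidal.μIso_hom, Category.assoc,
      Iso.hom_inv_id, Category.comp_id, MonoidalCategory.whiskerLeft_comp, unX]
    congr 1
    rw [rightUnitor_inv_naturality_assoc, ← whisker_exchange_assoc,
      Functor.LaxMonoidal.associativity_inv_assoc]
    monoidal

end Sk

end Vale.Agent.P236K.D3
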