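import Vale.Agent.P236K.D3.Dual
import Vale.Agent.P236K.D3.Asm
import Vale.Agent.P236K.St.Spec

/-!
# P236, block D3: the cube of a Hopf invariant
-/

open CategoryTheory MonoidalCategory Limits Pretriangulated MonObj
open Vale.Agent.P251 Vale.Agent.P251.T Vale.Agent.P251.H Vale.Agent.P251.I Vale.Agent.P251.M
open Vale.Agent.P236Z Vale.Agent.P236Z.Cat Vale.Agent.P236Z.Tr

universe v u

set_option linter.unusedSectionVars false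

noncomputable section

namespace Vale.Agent.P236K.D3

variable {T : Type u} [Category.{0} T] [Preadditive T] [HasZeroObject T]
    [HasShift T ℤ] [∀ n : ℤ, (shiftFunctor T n).Additive] [Pretriangulated T] [IsTriangulated T]
    [MonoidalCategory T] [SymmetricCategory T] [TensorTriangulated T] [MonoidalClosed T]
    [HasCoproducts.{0} T] [HasProducts.{0} T] [StableCat T]
    (hW : WStmt T) {H : T} [MonObj H] (hH : IsHF 3 η[H]) {n : ℤ} (hn : 3 ≤ n) {Z P : T}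
    (f : Z ⟶ 𝟙_ T) (hP : Sph (n + 2) P) {ω : P ⟶ H ⊗ H} (hf : St.Hopf η[H] f ω)
    (hω : (ω ⊗ₘ ω ⊗ₘ ω) ≫ (H ⊗ H) ◁ μ[H ⊗ H] ≫ μ[H ⊗ H] ≠ 0)

include hW hH hn hP hf hω

/-- The extension of the cube of `f` does not have Adams filtration two. -/
theorem exists_notAF {A B A' V : T} {x : A ⟶ Z⟦(1 : ℤ)⟧} {y : Z⟦(1 : ℤ)⟧ ⟶ B} (hA : Sph (n + 1) A)
    (hM : Moore x y) {x' : A' ⟶ V} {y' : V ⟶ B ⊗ B ⊗ B} (hM' : Moore x' y') :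
    ∃ (W : T) (j₀ : (Z ⊗ Z ⊗ Z)⟦(1 : ℤ)⟧ ⟶ W) (ρ : W ⟶ V)
      (φ : V ⟶ ((Z ⊗ Z ⊗ Z)⟦(1 : ℤ)⟧)⟦(1 : ℤ)⟧) (g : W ⟶ (𝟙_ T)⟦(1 : ℤ)⟧), Dist j₀ ρ φ ∧
      j₀ ≫ g = (m3 f f f)⟦(1 : ℤ)⟧' ∧ φ ≫ ((nrm Z)⟦(1 : ℤ)⟧')⟦(1 : ℤ)⟧' = 0 ∧ ¬ AF η[H] 2 g := by
  obtain ⟨C, i, π, r, y₀, D, hr, hy⟩ := hf
  have hS : Sph (3 * n + 6) (P ⊗ P ⊗ P) := hP.ten (hP.ten hP _ rfl) _ (by ring)
  obtain ⟨K, κ, k₁, k₂⟩ := exists_rep H hS
  obtain ⟨P₀, hP₀⟩ := k₂ _ hω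
  have h0 : PiZ (0 < ·) H := fun k hk => hH.conc k hk.ne'
  have hK : PiZ (· < 3 * n + 6) K := fun k hk g => k₁ g fun a => by
    rw [cell_zero (hS.cell (D := (· = 3 * n + 6)) rfl) ((h0.shift k (D' := (· = 3 * n + 6))
      fun j hj => by omega).iso (S.tensorSph k H)) (fun _ h => h) a, zero_comp, map_zero]
  have cQ : Cell (fun k => n + 1 ≤ k ∧ k ≤ n + 2) (Z⟦(1 : ℤ)⟧) :=
    hM.cell hA (by omega) (by omega)
  have cZ : Cell (· ≤ n + 1) Z :=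
    (cQ.shift (-1) fun k hk => by omega).iso (shiftShiftNeg Z (1 : ℤ))
  have cC : Cell (· ≤ n + 2) C :=
    Cell.ext D.rot (sph_unit.cell (by omega)) (cQ.mono fun k hk => by omega)
  have c₁ : CofIn (Cell (· ≤ n + 2)) (π ≫ y) := by
    refine CofIn.comp (Cell.extClosed _) ⟨_, _, _, D.rot.rot, Cell.sphere 1 (by omega)⟩ ?_
    obtain ⟨e, E⟩ := hM
    have := CofIn.comp_iso (Cell.extClosed (· ≤ n + 2)) e.symm
      ⟨_, _, _, E.rot.rot, (hA.shift 1 _ rfl).cell (by omega)⟩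
    simpa using this
  obtain ⟨R, q, d, E, cR⟩ := cof_cube (D' := (· ≤ 3 * n + 6)) c₁ cC ((hM.top hA).cell (by omega))
    fun d e e' hd he he' => by omega
  let u : C ⊗ C ⊗ C ⟶ H := (r ⊗ₘ r ⊗ₘ r) ≫ H ◁ μ[H] ≫ μ[H]
  obtain ⟨c, hc⟩ := ext₁ E (u ≫ P₀)
    (cell_zero cR (hK.shift 1 (D' := (· ≤ 3 * n + 6)) fun k hk => by omega) (fun _ h => h) _)
  obtain ⟨W, C', j₀, ρ, φ, i', π', g, T₁, T₂, w₁, w₂, w₃⟩ := hW n Z C A B H K A' V f i π x y η[H]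
    P₀ u c x' y' hn D hA hM hM' h0 hK (by
      rw [tensorHom_comp_tensorHom_assoc, tensorHom_comp_tensorHom, hr, ← id_tensorHom,
        tensorHom_comp_tensorHom_assoc, MonObj.one_mul_hom, Category.comp_id, MonObj.one_mul_hom,
        un3, ← id_tensorHom]
      simp) hc.symm
  refine ⟨W, j₀, ρ, φ, g, T₁, w₁, w₂, ?_⟩
  rintro ⟨Y, g₁, g₂, rfl, h₁, h₂⟩
  obtain ⟨C₂, i₂, π₂, T₃⟩ := exists_mid g₂
  obtain ⟨m, m₁, m₂⟩ := T₂.map₂ T₃ (𝟙 _) g₁ (by simp)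
  obtain ⟨u₂, hu₂⟩ := ext₁ T₃ η[H] (null_shift h₂)
  obtain ⟨w, hw⟩ := T₃.desc₂ (u₂ ≫ P₀)
    (cell_zero (sph_unit.cell (D := (· = 0)) rfl) hK (fun k hk => by omega) _)
  have e₁ : g₁ ≫ w = 0 := k₁ _ fun a => by
    rw [MonoidalCategory.whiskerLeft_comp, null_whisker h₁.null, zero_comp, comp_zero, map_zero]
  have e₂ := w₃ (m ≫ u₂) (by rw [reassoc_of% m₁, hu₂])
  rw [Category.assoc, ← hw, ← reassoc_of% m₂, e₁, comp_zero] at e₂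
  obtain ⟨z, hz⟩ := T₂.desc₃ _ e₂.symm
  rw [hK 1 (by omega) z, comp_zero] at hz
  obtain ⟨z', hz'⟩ := T₁.desc₃ _ hz.symm
  rw [cell_zero (((cell_tensor cZ (cell_tensor cZ cZ (D'' := (· ≤ 2 * n + 2)) fun d e hd he => by
    omega) (D'' := (· ≤ 3 * n + 3)) fun d e hd he => by omega).shift 1 (D' := (· ≤ 3 * n + 4))
      fun k hk => by omega).shift 1 (D' := (· ≤ 3 * n + 5)) fun k hk => by omega) hK
        (fun k hk => by omega) z', comp_zero] at hz'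
  obtain ⟨c', rfl⟩ := hM'.epiy c hz'.symm
  have e₃ : hx y₀ (hx y₀ y₀) ≫ H ◁ u = (ω ⊗ₘ ω ⊗ₘ ω) ≫ (H ⊗ H) ◁ μ[H ⊗ H] ≫ μ[H ⊗ H] := by
    rw [MonoidalCategory.whiskerLeft_comp, hx_nat_assoc, hx_nat, hy,
      MonoidalCategory.whiskerLeft_comp, ← id_tensorHom H μ[H], hx_nat_assoc, hx_mul,
      id_tensorHom H μ[H], hx_mul, ← id_tensorHom (H ⊗ H), tensorHom_comp_tensorHom_assoc]
    simp
  apply hP₀
  rw [← e₃, Category.assoc, ← MonoidalCategory.whiskerLeft_comp, ← hc, Preadditive.comp_zsmul,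
    show ∀ a : C ⊗ C ⊗ C ⟶ K, H ◁ ((3 : ℤ) • a) = (3 : ℤ) • H ◁ a from
      fun a => (tensorLeft H).map_zsmul, Preadditive.comp_zsmul,
    three_hom ((hH.ord 3).2 dvd_rfl), map_zero]

/-- The obstruction to a map with the cube of the Hopf invariant of `f`. -/
theorem cor (hL : Low T) (he : Even n) {A B : T} {x : A ⟶ Z} {y : Z ⟶ B} (hA : Sph n A)
    (hM : Moore x y) {N : T} {i : 𝟙_ T ⟶ N} {δ : N ⟶ (𝟙_ T)⟦(1 : ℤ)⟧}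
    (D : Dist ((3 : ℤ) • 𝟙 _) i δ) {S S' : T} (hS : Sph (3 * n + 4) S) (hS' : Sph (3 * n + 5) S') :
    ∃ φ : S ⟶ (A ⊗ A ⊗ A) ⊗ N, ∀ (X : T) (t : X ⟶ 𝟙_ T) (l : A ⊗ A ⊗ Z ⟶ X), AF η[H] 2 t →
      l ≫ t = m3 (x ≫ f) (x ≫ f) f → φ ≫ (A ◁ A ◁ x ≫ l) ▷ N = 0 →
        ∃ g : S' ⟶ N, ¬ AF η[H] 2 g := by
  obtain ⟨V, x₀, y₀, D₀⟩ := exists_cone ((3 : ℤ) • 𝟙 ((𝟙_ T)⟦3 * n + 3⟧))
  have M₀ := Moore.of_dist D₀
  have s₀ : Sph (3 * n + 3) ((𝟙_ T)⟦3 * n + 3⟧) := ⟨Iso.refl _⟩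
  have s₁ := s₀.shift 1 _ rfl
  have hB := hM.top hA
  have hB₁ := hB.shift 1 _ rfl
  obtain ⟨W, j₀, ρ, φ, g, T₁, w₁, w₂, w₃⟩ := exists_notAF hW hH hn f hP hf hω (hA.shift 1 _ rfl)
    hM.shift (M₀.shift.shift.isoTop (((s₁.shift 1 _ rfl).shift 1 (3 * n + 6) (by ring)).some ≪≫
      (hB₁.ten (hB₁.ten hB₁ _ rfl) (3 * n + 6) (by ring)).some.symm))
  obtain ⟨φ, rfl⟩ := (shiftFunctor T (1 : ℤ)).map_surjective φ
  obtain ⟨φ, rfl⟩ := (shiftFunctor T (1 : ℤ)).map_surjective φ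
  have w₄ : φ ≫ nrm Z = 0 := (shiftFunctor T (1 : ℤ)).map_injective
    ((shiftFunctor T (1 : ℤ)).map_injective (by simpa using w₂))
  obtain ⟨m, ζ, m₁, m₂⟩ := muStmt hL n A Z B x y he hA hM
  obtain ⟨a, ha⟩ := ((hM.wr B).wl A).monox (φ ≫ m ≫ A ◁ A ◁ y) (by
    rw [Category.assoc, Category.assoc, ← m₂, reassoc_of% w₄, zero_comp])
  obtain ⟨φ₀, h₀⟩ := ((hM.wl A).wl A).liftx (φ ≫ m) (by
    rw [Category.assoc, ha, M₀.three_src hL s₀])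
  obtain ⟨co, hco⟩ := M₀.dual hL s₀ D (S := S) (by rwa [add_assoc])
  obtain ⟨co', hco'⟩ := M₀.shift.dual hL s₁ D (S := S') (by rwa [add_assoc, add_assoc])
  refine ⟨co ≫ φ₀ ▷ N, fun X t l ht hl h => ?_⟩
  rw [Category.assoc, ← comp_whiskerRight, reassoc_of% h₀] at h
  obtain ⟨L, hL'⟩ := ext₁ T₁ ((m ≫ l)⟦(1 : ℤ)⟧') (by
    rw [← Functor.map_comp, ← Functor.map_comp, (hco _).1 h, Functor.map_zero, Functor.map_zero])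
  obtain ⟨F, hF⟩ := T₁.desc₂ (g - L ≫ t⟦(1 : ℤ)⟧') (by
    rw [Preadditive.comp_sub, w₁, reassoc_of% hL', ← Functor.map_comp, Category.assoc, hl, ← m₁,
      sub_self])
  obtain ⟨F, rfl⟩ := (shiftFunctor T (1 : ℤ)).map_surjective F
  refine ⟨co' ≫ F ▷ N ≫ (λ_ N).hom, fun h2 => w₃ ?_⟩
  have h3 := af_add ((af_shift ((hco' F).2 _ 2 (by simpa using h2.post (λ_ N).inv))).pre ρ)
    ((af_shift ht).pre L)
  rwa [hF, sub_add_cancel] at h3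

end Vale.Agent.P236K.D3
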