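import Vale.Agent.P236Z.Cat.Exf
import Vale.Agent.P251.H.Dist

/-!
# P236, block D3: the diagonal of a mapping cone (model level)

For a monoidal functor `Nm` of stable models (not exact) with diagonals of the cone and of the
circle, the cone of `N h` maps to `N` of the cone of `h`, compatibly with the Euler class.
-/

open CategoryTheory Limits MonoidalCategory ZeroObject Pretriangulated
open Functor.LaxMonoidal Functor.OplaxMonoidal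
open Vale.Agent.P251 Vale.Agent.P251.H Vale.Agent.P251.H.CofCat Vale.Agent.P251.H.TensorCofCat
open Vale.Agent.P236Z.Cat

universe v₁ u₁ v₂ u₂ v₃ u₃ v₄ u₄

noncomputable section
namespace Vale.Agent.P236K.D3

variable {C : Type u₁} [Category.{v₁} C] [HasZeroObject C] [HasZeroMorphisms C]
  [HasBinaryCoproducts C] [CofCat C] [MonoidalCategory C] [SymmetricCategory C] [TensorCofCat C]
  {C' : Type u₂} [Category.{v₂} C'] [HasZeroObject C'] [HasZeroMorphisms C']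
  [HasBinaryCoproducts C'] [CofCat C'] [MonoidalCategory C'] [SymmetricCategory C']
  [TensorCofCat C'] {P : StabModel C} {P' : StabModel C'} (Nm : C ⥤ C') [Nm.Monoidal]
  [Nm.PreservesZeroMorphisms]

/-- the diagonals of the cone and of the circle -/
structure Dg (P : StabModel C) (P' : StabModel C') (Nm : C ⥤ C') [Nm.Monoidal] where
  /-- the diagonal of the cone -/
  c : P'.m.CI ⟶ Nm.obj P.m.CI
  /-- the diagonal of the circle -/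
  s : P'.m.S ⟶ Nm.obj P.m.S
  hc : P'.m.c ≫ c = ε Nm ≫ Nm.map P.m.c
  hs : P'.m.s ≫ s = c ≫ Nm.map P.m.s

namespace Dg

variable {Nm} (D : Dg P P' Nm)

/-- the diagonal of a cone -/
def cone (A : C) : Cone.obj (Nm.obj A) ⟶ Nm.obj (Cone.obj A) :=
  (P'.m.coneIso _).inv ≫ Nm.obj A ◁ D.c ≫ μ Nm A P.m.CI ≫ Nm.map (P.m.coneIso A).hom

/-- the diagonal of a suspension -/
def susp (A : C) : Susp.obj (Nm.obj A) ⟶ Nm.obj (Susp.obj A) :=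
  (P'.m.suspIso _).inv ≫ Nm.obj A ◁ D.s ≫ μ Nm A P.m.S ≫ Nm.map (P.m.suspIso A).hom

omit [Nm.PreservesZeroMorphisms] in
@[reassoc]
theorem cin_cone (A : C) : cin (Nm.obj A) ≫ D.cone A = Nm.map (cin A) := by
  rw [← P.m.coneIn_coneIso A, ← P'.m.coneIn_coneIso (Nm.obj A), cone, Category.assoc,
    Iso.hom_inv_id_assoc, ConeModel.coneIn, ConeModel.coneIn, Category.assoc,
    ← MonoidalCategory.whiskerLeft_comp_assoc, D.hc, MonoidalCategory.whiskerLeft_comp_assoc,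
    μ_natural_right_assoc, Nm.map_comp, Nm.map_comp, Functor.LaxMonoidal.right_unitality_inv_assoc,
    Category.assoc]

omit [Nm.PreservesZeroMorphisms] in
@[reassoc]
theorem cpr_susp (A : C) : cpr (Nm.obj A) ≫ D.susp A = D.cone A ≫ Nm.map (cpr A) := by
  have h : cpr (Nm.obj A) ≫ (P'.m.suspIso _).inv = (P'.m.coneIso _).inv ≫ Nm.obj A ◁ P'.m.s := by
    rw [Iso.comp_inv_eq, Category.assoc, ConeModel.s_suspIso, Iso.inv_hom_id_assoc]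
  rw [susp, cone, reassoc_of% h, ← MonoidalCategory.whiskerLeft_comp_assoc, D.hs,
    MonoidalCategory.whiskerLeft_comp_assoc, μ_natural_right_assoc, ← Nm.map_comp,
    ConeModel.s_suspIso, Nm.map_comp]
  simp only [Category.assoc]

/-- the strict diagonal of a mapping cone -/
theorem strict {A B Q : C} (j : A ⟶ B) {a : B ⟶ Q} {b : Cone.obj A ⟶ Q}
    (hQ : IsPushout j (cin A) a b) {d : Q ⟶ Susp.obj A} (h3 : a ≫ d = 0) (h4 : b ≫ d = cpr A) :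
    ∃ (V : C') (a' : Nm.obj B ⟶ V) (b' : Cone.obj (Nm.obj A) ⟶ V) (d' : V ⟶ Susp.obj (Nm.obj A))
      (c : V ⟶ Nm.obj Q), IsPushout (Nm.map j) (cin _) a' b' ∧ a' ≫ d' = 0 ∧ b' ≫ d' = cpr _ ∧
      a' ≫ c = Nm.map a ∧ c ≫ Nm.map d = d' ≫ D.susp A := by
  obtain ⟨V, b', a', hV⟩ := exists_pushout (cin (Nm.obj A)) (Nm.map j) (cof_cin _)
  have hV' := hV.flip
  let d' : V ⟶ Susp.obj (Nm.obj A) := hV'.desc 0 (cpr _) (by simp)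
  let c : V ⟶ Nm.obj Q := hV'.desc (Nm.map a) (D.cone A ≫ Nm.map b) (by
    rw [cin_cone_assoc, ← Nm.map_comp, ← Nm.map_comp, hQ.w])
  have e1 : a' ≫ d' = 0 := hV'.inl_desc _ _ _
  have e2 : b' ≫ d' = cpr _ := hV'.inr_desc _ _ _
  have e3 : a' ≫ c = Nm.map a := hV'.inl_desc _ _ _
  have e4 : b' ≫ c = D.cone A ≫ Nm.map b := hV'.inr_desc _ _ _
  refine ⟨V, a', b', d', c, hV', e1, e2, e3, hV'.hom_ext ?_ ?_⟩
  · rw [reassoc_of% e3, reassoc_of% e1, ← Nm.map_comp, h3, Nm.map_zero, zero_comp]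
  · rw [reassoc_of% e4, reassoc_of% e2, ← Nm.map_comp, h4, cpr_susp]

variable {D₀ : Type u₃} [Category.{v₃} D₀] (L₀ : C ⥤ D₀) [L₀.IsLocalization (W (C := C))]
  {D₀' : Type u₄} [Category.{v₄} D₀'] (L₀' : C' ⥤ D₀') [L₀'.IsLocalization (W (C := C'))]
  (N : TT P L₀ ⥤ TT P' L₀') [N.Monoidal] (eN : TT.L P L₀ ⋙ N ≅ Nm ⋙ TT.L P' L₀')
  [he : NatTrans.IsMonoidal eN.hom]

/-- the norm of an object of the model -/
def x (Y : C) : N.obj ((TT.L P L₀).obj Y) ≅ (TT.L P' L₀').obj (Nm.obj Y) := eN.app Y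

omit [Nm.PreservesZeroMorphisms] [Nm.Monoidal] [N.Monoidal] he in
@[reassoc]
theorem x_nat {X Y : C} (f : X ⟶ Y) : N.map ((TT.L P L₀).map f) ≫ (x L₀ L₀' N eN Y).hom =
    (x L₀ L₀' N eN X).hom ≫ (TT.L P' L₀').map (Nm.map f) := eN.hom.naturality f

omit [Nm.PreservesZeroMorphisms] [Nm.Monoidal] [N.Monoidal] he in
@[reassoc]
theorem x_nat' {X Y : C} (f : X ⟶ Y) : (TT.L P' L₀').map (Nm.map f) ≫ (x L₀ L₀' N eN Y).inv =
    (x L₀ L₀' N eN X).inv ≫ N.map ((TT.L P L₀).map f) := by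
  rw [Iso.comp_inv_eq, Category.assoc, x_nat, Iso.inv_hom_id_assoc]

/-- the diagonal of the object which defines the shift -/
def k : KK P' L₀' ⟶ N.obj (KK P L₀) :=
  (κ P' L₀').inv ≫ (TT.L P' L₀').map D.s ≫ (x L₀ L₀' N eN P.m.S).inv ≫ N.map (κ P L₀).hom

/-- the Euler class -/
def σ (A : TT P L₀) : (N.obj A)⟦(1 : ℤ)⟧ ⟶ N.obj (A⟦(1 : ℤ)⟧) :=
  (N.obj A ◁ D.k L₀ L₀' N eN ≫ μ N A (KK P L₀) : N.obj A ⊗ KK P' L₀' ⟶ N.obj (A ⊗ KK P L₀))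

omit [Nm.PreservesZeroMorphisms] he in
theorem σ_nat {A B : TT P L₀} (f : A ⟶ B) : (N.map f)⟦(1 : ℤ)⟧' ≫ D.σ L₀ L₀' N eN B =
    D.σ L₀ L₀' N eN A ≫ N.map (f⟦(1 : ℤ)⟧') := by
  change N.map f ▷ KK P' L₀' ≫ N.obj B ◁ D.k L₀ L₀' N eN ≫ μ N B (KK P L₀) =
    (N.obj A ◁ D.k L₀ L₀' N eN ≫ μ N A (KK P L₀)) ≫ N.map (f ▷ KK P L₀)
  rw [← whisker_exchange_assoc, μ_natural_left, Category.assoc]

omit [Nm.PreservesZeroMorphisms] in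
theorem susp_τ (A : C) : (TT.L P' L₀').map (D.susp A) ≫ (x L₀ L₀' N eN (Susp.obj A)).inv ≫
    N.map ((TT.τ P L₀).hom.app A) = (TT.τ P' L₀').hom.app (Nm.obj A) ≫
      ((x L₀ L₀' N eN A).inv)⟦(1 : ℤ)⟧' ≫ D.σ L₀ L₀' N eN ((TT.L P L₀).obj A) := by
  have m : (μ N _ _ ≫ N.map (μ (TT.L P L₀) A P.m.S)) ≫ (x L₀ L₀' N eN (A ⊗ P.m.S)).hom =
      ((x L₀ L₀' N eN A).hom ⊗ₘ (x L₀ L₀' N eN P.m.S).hom) ≫ μ (TT.L P' L₀') _ _ ≫
        (TT.L P' L₀').map (μ Nm A P.m.S) := he.tensor A P.m.S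
  have m' : (TT.L P' L₀').map (μ Nm A P.m.S) ≫ (x L₀ L₀' N eN (A ⊗ P.m.S)).inv ≫
      N.map (δ (TT.L P L₀) A P.m.S) = δ (TT.L P' L₀') _ _ ≫
        ((x L₀ L₀' N eN A).inv ⊗ₘ (x L₀ L₀' N eN P.m.S).inv) ≫ μ N _ _ := by
    rw [← cancel_epi (((x L₀ L₀' N eN A).hom ⊗ₘ (x L₀ L₀' N eN P.m.S).hom) ≫
      μ (TT.L P' L₀') _ _), Category.assoc, ← reassoc_of% m]
    simp [← Functor.map_comp]
  change (TT.L P' L₀').map (D.susp A) ≫ (x L₀ L₀' N eN (Susp.obj A)).inv ≫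
    N.map ((TT.L P L₀).map (P.m.suspIso A).inv ≫ δ (TT.L P L₀) A P.m.S ≫
      (TT.L P L₀).obj A ◁ (κ P L₀).hom) =
    ((TT.L P' L₀').map (P'.m.suspIso (Nm.obj A)).inv ≫ δ (TT.L P' L₀') (Nm.obj A) P'.m.S ≫
      (TT.L P' L₀').obj (Nm.obj A) ◁ (κ P' L₀').hom) ≫ (x L₀ L₀' N eN A).inv ▷ KK P' L₀' ≫
      N.obj ((TT.L P L₀).obj A) ◁ D.k L₀ L₀' N eN ≫ μ N _ (KK P L₀)
  simp only [susp, k, Functor.map_comp, Category.assoc, MonoidalCategory.whiskerLeft_comp]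
  rw [← x_nat'_assoc, ← (TT.L P' L₀').map_comp_assoc (Nm.map (P.m.suspIso A).hom), ← Nm.map_comp,
    Iso.hom_inv_id, Nm.map_id, (TT.L P' L₀').map_id, Category.id_comp, reassoc_of% m',
    ← δ_natural_right_assoc, ← μ_natural_right]
  simp only [tensorHom_def, whisker_exchange_assoc, whiskerLeft_hom_inv_assoc, Category.assoc]

omit [Nm.PreservesZeroMorphisms] [Nm.Monoidal] in
theorem exists_of_dist' {A B Z : TT P L₀} {h : A ⟶ B} {i : B ⟶ Z} {j : Z ⟶ A⟦(1 : ℤ)⟧}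
    (T : Dist h i j) : ∃ (A' B' R : C) (j' : A' ⟶ B') (a₀ : B' ⟶ R) (b₀ : Cone.obj A' ⟶ R)
      (d₀ : R ⟶ Susp.obj A') (t : (TT.L P L₀).obj (Susp.obj A') ⟶ ((TT.L P L₀).obj A')⟦(1 : ℤ)⟧)
      (a : A ≅ (TT.L P L₀).obj A') (y : B ≅ (TT.L P L₀).obj B')
      (r : (TT.L P L₀).obj R ⟶ Z), t = (TT.τ P L₀).hom.app A' ∧
      IsPushout j' (cin A') a₀ b₀ ∧ a₀ ≫ d₀ = 0 ∧ b₀ ≫ d₀ = cpr A' ∧
      h ≫ y.hom = a.hom ≫ (TT.L P L₀).map j' ∧ (TT.L P L₀).map a₀ ≫ r = y.inv ≫ i ∧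
      r ≫ j = (TT.L P L₀).map d₀ ≫ t ≫ a.inv⟦(1 : ℤ)⟧' := by
  obtain ⟨A', B', Q, j', q, δ', a, y, z, hc, h1, h2, h3⟩ :
      ∃ (A' B' Q : C) (j' : A' ⟶ B') (q : B' ⟶ Q)
      (δ' : (TT.L P L₀).obj Q ⟶ ((TT.L P L₀).obj A')⟦(1 : ℤ)⟧)
      (a : A ≅ (TT.L P L₀).obj A') (y : B ≅ (TT.L P L₀).obj B') (z : Z ≅ (TT.L P L₀).obj Q),
      IsConn (TT.τ P L₀) j' q δ' ∧ h ≫ y.hom = a.hom ≫ (TT.L P L₀).map j' ∧
      i ≫ z.hom = y.hom ≫ (TT.L P L₀).map q ∧ j ≫ a.hom⟦(1 : ℤ)⟧' = z.hom ≫ δ' :=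
    exists_of_dist (τ := TT.τ P L₀) T
  obtain ⟨R, a₀, b₀, r, d₀, hR, k1, k2, k3, k4, k5⟩ := hc.exists_conn
  obtain ⟨t, ht⟩ : ∃ t : (TT.L P L₀).obj (Susp.obj A') ⟶ ((TT.L P L₀).obj A')⟦(1 : ℤ)⟧,
    t = (TT.τ P L₀).hom.app A' := ⟨_, rfl⟩
  have k5' : (TT.L P L₀).map r ≫ δ' = (TT.L P L₀).map d₀ ≫ t := by rw [ht]; exact k5
  refine ⟨A', B', R, j', a₀, b₀, d₀, t, a, y, (TT.L P L₀).map r ≫ z.inv, ht, hR, k3, k4, h1,
    ?_, ?_⟩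
  · rw [← (TT.L P L₀).map_comp_assoc, k1, Iso.eq_inv_comp, ← reassoc_of% h2, Iso.hom_inv_id,
      Category.comp_id]
  · have h4 : z.inv ≫ j = δ' ≫ a.inv⟦(1 : ℤ)⟧' := by
      rw [Iso.inv_comp_eq, ← reassoc_of% h3, ← Functor.map_comp, Iso.hom_inv_id,
        CategoryTheory.Functor.map_id, Category.comp_id]
    rw [Category.assoc, h4, reassoc_of% k5']

/-- **The diagonal of a distinguished triangle.** -/
theorem diag {A B Z : TT P L₀} {h : A ⟶ B} {i : B ⟶ Z} {j : Z ⟶ A⟦(1 : ℤ)⟧} (T : Dist h i j) :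
    ∃ (V : TT P' L₀') (u : N.obj B ⟶ V) (d : V ⟶ (N.obj A)⟦(1 : ℤ)⟧) (c : V ⟶ N.obj Z),
      Dist (N.map h) u d ∧ u ≫ c = N.map i ∧ c ≫ N.map j = d ≫ D.σ L₀ L₀' N eN A := by
  obtain ⟨A', B', R, j', a₀, b₀, d₀, t, a, y, r, ht, hR, k3, k4, h1, h2, h3⟩ :=
    exists_of_dist' L₀ T
  obtain ⟨V, a', b', d', c, hV, e1, e2, e3, e4⟩ := D.strict j' hR k3 k4
  obtain ⟨t', ht'⟩ : ∃ t' : (TT.L P' L₀').obj (Susp.obj (Nm.obj A')) ⟶
    ((TT.L P' L₀').obj (Nm.obj A'))⟦(1 : ℤ)⟧, t' = (TT.τ P' L₀').hom.app (Nm.obj A') := ⟨_, rfl⟩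
  have T' : Dist ((TT.L P' L₀').map (Nm.map j')) ((TT.L P' L₀').map a')
      ((TT.L P' L₀').map d' ≫ t') := by
    rw [ht']
    exact locCone_mem_dist (TT.τ P' L₀') (Nm.map j') hV e1 e2
  have hs : (TT.L P' L₀').map (D.susp A') ≫ (x L₀ L₀' N eN (Susp.obj A')).inv ≫ N.map t =
      t' ≫ ((x L₀ L₀' N eN A').inv)⟦(1 : ℤ)⟧' ≫ D.σ L₀ L₀' N eN ((TT.L P L₀).obj A') := by
    rw [ht, ht']
    exact D.susp_τ L₀ L₀' N eN A'
  let xa : N.obj A ≅ (TT.L P' L₀').obj (Nm.obj A') := N.mapIso a ≪≫ x L₀ L₀' N eN A'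
  let xb : N.obj B ≅ (TT.L P' L₀').obj (Nm.obj B') := N.mapIso y ≪≫ x L₀ L₀' N eN B'
  refine ⟨(TT.L P' L₀').obj V, xb.hom ≫ (TT.L P' L₀').map a',
    ((TT.L P' L₀').map d' ≫ t') ≫ xa.inv⟦(1 : ℤ)⟧',
    (TT.L P' L₀').map c ≫ (x L₀ L₀' N eN R).inv ≫ N.map r, ?_, ?_, ?_⟩
  · refine isomorphic_distinguished _ T' _ (Triangle.isoMk _ _ xa xb (Iso.refl _) ?_ ?_ ?_)
    · change N.map h ≫ N.map y.hom ≫ (x L₀ L₀' N eN B').hom =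
        (N.map a.hom ≫ (x L₀ L₀' N eN A').hom) ≫ (TT.L P' L₀').map (Nm.map j')
      rw [← N.map_comp_assoc, h1, N.map_comp_assoc, x_nat, Category.assoc]
    · exact Category.comp_id _
    · change (((TT.L P' L₀').map d' ≫ t') ≫ xa.inv⟦(1 : ℤ)⟧') ≫ xa.hom⟦(1 : ℤ)⟧' =
        𝟙 _ ≫ (TT.L P' L₀').map d' ≫ t'
      rw [Category.assoc, ← Functor.map_comp, Iso.inv_hom_id, CategoryTheory.Functor.map_id,
        Category.comp_id, Category.id_comp]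
  · change ((N.map y.hom ≫ (x L₀ L₀' N eN B').hom) ≫ (TT.L P' L₀').map a') ≫ _ = _
    rw [Category.assoc, Category.assoc, ← (TT.L P' L₀').map_comp_assoc, e3, x_nat'_assoc,
      Iso.hom_inv_id_assoc, ← N.map_comp, ← N.map_comp, h2, Iso.hom_inv_id_assoc]
  · change _ = (_ ≫ ((x L₀ L₀' N eN A').inv ≫ N.map a.inv)⟦(1 : ℤ)⟧') ≫ _
    rw [Category.assoc, Category.assoc, ← N.map_comp, h3, N.map_comp, N.map_comp, ← x_nat'_assoc,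
      ← (TT.L P' L₀').map_comp_assoc, e4, (TT.L P' L₀').map_comp_assoc, reassoc_of% hs, ← σ_nat,
      Functor.map_comp]
    simp only [Category.assoc]

end Dg

end Vale.Agent.P236K.D3
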