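import Vale.Agent.P236K.D3.Orb
import Vale.Agent.P251.S.Coprod
import Vale.Agent.P251.H.BrownApp
import Mathlib.Algebra.Module.CharacterModule

/-!
# P236, block D3: the dual of a homology group, self-duality of Moore objects
-/

open CategoryTheory MonoidalCategory Limits Pretriangulated MonObj
open Vale.Agent.P251 Vale.Agent.P251.T Vale.Agent.P251.H Vale.Agent.P251.I Vale.Agent.P251.M
open Vale.Agent.P236Z Vale.Agent.P236Z.Cat Vale.Agent.P236Z.Tr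

universe v u

set_option linter.unusedSectionVars false

noncomputable section

namespace Vale.Agent.P236K.D3

section af

variable {T : Type u} [Category.{v} T] [Preadditive T] [HasZeroObject T]
    [HasShift T ℤ] [∀ n : ℤ, (shiftFunctor T n).Additive] [Pretriangulated T]
    [MonoidalCategory T] [SymmetricCategory T] [TensorTriangulated T] {H : T}

theorem af_add {e₀ : 𝟙_ T ⟶ H} : ∀ {s : ℕ} {A B : T} {f f' : A ⟶ B}, AF e₀ s f → AF e₀ s f' →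
    AF e₀ s (f + f')
  | 0, _, _, _, _, _, _ => trivial
  | _ + 1, _, _, _, _, ⟨C, g, h, e, hg, hh⟩, ⟨C', g', h', e', hg', hh'⟩ =>
    ⟨C ⊞ C', g ≫ biprod.inl + g' ≫ biprod.inr, biprod.desc h h', by simp [e, e'],
      af_add (hg.post _) (hg'.post _), biprod.hom_ext' _ _
        (by rw [biprod.inl_desc_assoc, comp_zero]; exact hh)
        (by rw [biprod.inr_desc_assoc, comp_zero]; exact hh')⟩

theorem af_shift {e₀ : 𝟙_ T ⟶ H} {s : ℕ} {A B : T} {f : A ⟶ B} (h : AF e₀ s f) :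
    AF e₀ s (f⟦(1 : ℤ)⟧') := by
  rw [← (Iso.inv_comp_eq _).2 (TensorTriangulated.e_naturality f)]
  exact ((h.whiskerRight _).post _).pre _

theorem null_shift {e₀ : 𝟙_ T ⟶ H} {A : T} {g : A ⟶ (𝟙_ T)⟦(1 : ℤ)⟧} (h : Null e₀ g) :
    g ≫ e₀⟦(1 : ℤ)⟧' = 0 := by
  have h1 : e₀⟦(1 : ℤ)⟧' = hur e₀ _ ≫ (TensorTriangulated.e H).hom := by
    rw [hur, Category.assoc, TensorTriangulated.e_naturality, TensorTriangulated.e_unit,
      Iso.inv_hom_id_assoc]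
  rw [h1, reassoc_of% h, zero_comp]

theorem null_whisker [MonObj H] {A B : T} {g : A ⟶ B} (h : Null η[H] g) : H ◁ g = 0 := by
  have h1 : H ◁ hur η[H] B ≫ (α_ H H B).inv ≫ μ[H] ▷ B = 𝟙 _ := by
    rw [hur, MonoidalCategory.whiskerLeft_comp, Category.assoc,
      associator_inv_naturality_middle_assoc, ← comp_whiskerRight, MonObj.mul_one]
    monoidal
  rw [← Category.comp_id (H ◁ g), ← h1, ← MonoidalCategory.whiskerLeft_comp_assoc, h,
    MonoidalPreadditive.whiskerLeft_zero, zero_comp]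

theorem three_hom [MonObj H] (h : (3 : ℤ) • η[H] = 0) {S X : T} (a : S ⟶ H ⊗ X) :
    (3 : ℤ) • a = 0 := by
  have h1 : (3 : ℤ) • 𝟙 H = 0 := by
    rw [← (λ_ H).inv_hom_id, ← MonObj.one_mul, ← Preadditive.comp_zsmul, ← Preadditive.zsmul_comp,
      ← zsmul_whiskerRight, h, MonoidalPreadditive.zero_whiskerRight, zero_comp, comp_zero]
  rw [← Category.comp_id a, ← Preadditive.comp_zsmul, ← id_whiskerRight, ← zsmul_whiskerRight, h1,
    MonoidalPreadditive.zero_whiskerRight, comp_zero]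

/-- the external product of homology classes -/
def hx [MonObj H] {P Q X Y : T} (a : P ⟶ H ⊗ X) (b : Q ⟶ H ⊗ Y) : P ⊗ Q ⟶ H ⊗ (X ⊗ Y) :=
  (a ⊗ₘ b) ≫ tensorμ H X H Y ≫ μ[H] ▷ (X ⊗ Y)

@[reassoc]
theorem hx_nat [MonObj H] {P Q X Y X' Y' : T} (a : P ⟶ H ⊗ X) (b : Q ⟶ H ⊗ Y) (f : X ⟶ X')
    (g : Y ⟶ Y') : hx a b ≫ H ◁ (f ⊗ₘ g) = hx (a ≫ H ◁ f) (b ≫ H ◁ g) := by
  have h := tensorμ_natural (𝟙 H) f (𝟙 H) g
  simp only [id_tensorHom, MonoidalCategory.whiskerLeft_id] at h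
  rw [hx, hx, ← tensorHom_comp_tensorHom, Category.assoc, Category.assoc, Category.assoc,
    reassoc_of% h, whisker_exchange]

theorem hx_mul [MonObj H] {P Q : T} (a : P ⟶ H ⊗ H) (b : Q ⟶ H ⊗ H) :
    hx a b ≫ H ◁ μ[H] = (a ⊗ₘ b) ≫ μ[H ⊗ H] := by
  rw [hx, Category.assoc, Category.assoc, ← MonoidalCategory.tensorHom_def, tensorObj.mul_def]

variable {A Z B : T} {x : A ⟶ Z} {y : Z ⟶ B}

theorem Moore.shift (M : Moore x y) : Moore (x⟦(1 : ℤ)⟧') (y⟦(1 : ℤ)⟧') := by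
  obtain ⟨e, D⟩ := M
  refine ⟨(shiftFunctor T (1 : ℤ)).mapIso e ≪≫ ⟨-𝟙 _, -𝟙 _, by simp, by simp⟩, ?_⟩
  have := dist_iso D.rot.rot.rot (Iso.refl _) ⟨-𝟙 _, -𝟙 _, by simp, by simp⟩ (Iso.refl _)
    (f' := (3 : ℤ) • 𝟙 (A⟦(1 : ℤ)⟧)) (g' := x⟦(1 : ℤ)⟧') (by simp) (by simp)
  simpa using this

theorem Moore.isoTop (M : Moore x y) {B' : T} (e : B ≅ B') : Moore x (y ≫ e.hom) := by
  obtain ⟨e', D⟩ := M
  exact ⟨e.symm ≪≫ e', by simpa using D⟩

theorem Moore.of_dist {δ : Z ⟶ A⟦(1 : ℤ)⟧} (D : Dist ((3 : ℤ) • 𝟙 A) x δ) : Moore x δ :=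
  ⟨Iso.refl _, by simpa using D⟩

/-- Moore objects are self-dual. -/
theorem Moore.dual (M : Moore x y) (hL : Low T) {a : ℤ} (hA : Sph a A) {N : T} {i : 𝟙_ T ⟶ N}
    {δ : N ⟶ (𝟙_ T)⟦(1 : ℤ)⟧} (D : Dist ((3 : ℤ) • 𝟙 _) i δ) {S : T} (hS : Sph (a + 1) S) :
    ∃ co : S ⟶ Z ⊗ N, ∀ {Y : T} (F : Z ⟶ Y), (co ≫ F ▷ N = 0 → F = 0) ∧
      ∀ {H : T} (e₀ : 𝟙_ T ⟶ H) (s : ℕ), AF e₀ s (co ≫ F ▷ N) → AF e₀ s F := by
  have MN := Moore.of_dist D
  have h1 : Sph 1 ((𝟙_ T)⟦(1 : ℤ)⟧) := ⟨Iso.refl _⟩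
  have hA1 := hA.ten h1 _ rfl
  let e : S ≅ A ⊗ (𝟙_ T)⟦(1 : ℤ)⟧ := hS.some ≪≫ hA1.some.symm
  obtain ⟨co, hco⟩ := (MN.wl Z).lifty (e.hom ≫ x ▷ _) (by
    rw [← Preadditive.comp_zsmul, (M.wr _).x3, comp_zero])
  obtain ⟨ev, hev⟩ := (MN.wl N).descx ((ρ_ N).hom ≫ δ) (by
    rw [← Preadditive.comp_zsmul, MN.y3, comp_zero])
  have hz : S ◁ i ≫ co ▷ N ≫ (α_ _ _ _).hom ≫ Z ◁ ev = (ρ_ S).hom ≫ e.hom ≫ x ▷ _ := by
    rw [whisker_exchange_assoc, associator_naturality_right_assoc,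
      ← MonoidalCategory.whiskerLeft_comp, hev, ← hco, ← rightUnitor_naturality_assoc]
    simp
  obtain ⟨z, hz'⟩ := (M.wr ((𝟙_ T)⟦(1 : ℤ)⟧)).descx (e.inv ≫ (ρ_ S).inv ≫ S ◁ i) (by
    rw [← Preadditive.comp_zsmul, ← Preadditive.comp_zsmul, (MN.wl S).x3, comp_zero, comp_zero])
  obtain ⟨w, hw⟩ := (M.wr ((𝟙_ T)⟦(1 : ℤ)⟧)).descy
    (z ≫ co ▷ N ≫ (α_ _ _ _).hom ≫ Z ◁ ev - 𝟙 _) (by
      rw [Preadditive.comp_sub, reassoc_of% hz', hz]
      simp)
  rw [(M.wr _).pi_zero hL hA1 ((M.wr _).top hA1) (Or.inl rfl) w, comp_zero, eq_comm,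
    sub_eq_zero] at hw
  have key : ∀ {Y : T} (F : Z ⟶ Y),
      F ▷ (𝟙_ T)⟦(1 : ℤ)⟧ = z ≫ (co ≫ F ▷ N) ▷ N ≫ (α_ _ _ _).hom ≫ Y ◁ ev := fun F => by
    rw [comp_whiskerRight, Category.assoc, associator_naturality_left_assoc, ← whisker_exchange,
      reassoc_of% hw]
  refine ⟨co, fun F => ⟨fun h => ?_, fun e₀ s h => ?_⟩⟩
  · apply (shiftFunctor T (1 : ℤ)).map_injective
    rw [← (Iso.inv_comp_eq _).2 (TensorTriangulated.e_naturality F), key, h]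
    simp
  · refine AF.of_whiskerRight (invOf (Iso.refl ((𝟙_ T)⟦(1 : ℤ)⟧))) ?_
    rw [key]
    exact ((h.whiskerRight _).post _).pre _

end af

section rep

variable {T : Type u} [Category.{0} T] [Preadditive T] [HasZeroObject T]
    [HasShift T ℤ] [∀ n : ℤ, (shiftFunctor T n).Additive] [Pretriangulated T] [IsTriangulated T]
    [MonoidalCategory T] [SymmetricCategory T] [TensorTriangulated T] [MonoidalClosed T]
    [HasCoproducts.{0} T] [HasProducts.{0} T] [StableCat T]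

/-- the induced map in homology -/
def hm (S H : T) {X Y : T} (f : X ⟶ Y) : (S ⟶ H ⊗ X) →+ (S ⟶ H ⊗ Y) :=
  Preadditive.rightComp S (H ◁ f)

/-- the character module of homology -/
def dualCoh (H : T) {S : T} (hS : P251.S.IsSphere S) : Coh.{0} T where
  obj X := (S ⟶ H ⊗ X) →+ AddCircle (1 : ℚ)
  res f χ := χ.comp (hm S H f)
  res_id χ := AddMonoidHom.ext fun a => congrArg χ (by simp [hm, Preadditive.rightComp])
  res_comp f g χ := AddMonoidHom.ext fun a => congrArg χ (by simp [hm, Preadditive.rightComp])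
  res_add f χ ψ := rfl
  add_res f g χ := AddMonoidHom.ext fun a => (congrArg χ (by
    simp [hm, Preadditive.rightComp])).trans (map_add χ _ _)
  exact {X Y Z f g h} D χ hχ := by
    obtain ⟨d, D'⟩ := dist_tensL D H
    have h1 : (hm S H g).ker ≤ χ.ker := fun a ha => by
      obtain ⟨b, rfl⟩ := D'.lift₂ a ha
      exact DFunLike.congr_fun hχ b
    obtain ⟨ψ, hψ⟩ := CharacterModule.dual_surjective_of_injective
      (QuotientAddGroup.kerLift (hm S H g)).toIntLinearMap (QuotientAddGroup.kerLift_injective _)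
      (QuotientAddGroup.lift _ χ h1)
    exact ⟨ψ, AddMonoidHom.ext fun a => DFunLike.congr_fun hψ (QuotientAddGroup.mk a)⟩
  prod {I} X := by
    classical
    have hf : ∀ (χ : ∀ i, (S ⟶ H ⊗ X i) →+ AddCircle (1 : ℚ)) (a : S ⟶ H ⊗ ∐ X),
        Function.HasFiniteSupport fun i => χ i (a ≫ H ◁ Sigma.π X i) := fun χ a => by
      obtain ⟨s, g, rfl⟩ := P251.S.compact_sumL H X hS a
      refine s.finite_toSet.subset fun j hj => ?_
      by_contra h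
      refine hj ((congrArg (χ j) ?_).trans (map_zero _))
      rw [Preadditive.sum_comp]
      refine Finset.sum_eq_zero fun i hi => ?_
      rw [Category.assoc, ← MonoidalCategory.whiskerLeft_comp,
        Sigma.ι_π_of_ne X fun e : i = j => h (e ▸ hi)]
      simp
    refine ⟨fun χ ψ h => AddMonoidHom.ext fun a => ?_, fun χ => ⟨AddMonoidHom.mk'
      (fun a => ∑ᶠ i, χ i (a ≫ H ◁ Sigma.π X i)) fun a b => ?_, funext fun j =>
        AddMonoidHom.ext fun a => ?_⟩⟩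
    · obtain ⟨s, g, rfl⟩ := P251.S.compact_sumL H X hS a
      rw [map_sum, map_sum]
      exact Finset.sum_congr rfl fun i _ => DFunLike.congr_fun (congrFun h i) (g i)
    · rw [← finsum_add_distrib (hf χ a) (hf χ b)]
      simp only [Preadditive.add_comp, map_add]
    · change ∑ᶠ i, χ i ((a ≫ H ◁ Sigma.ι X j) ≫ H ◁ Sigma.π X i) = χ j a
      rw [finsum_eq_single _ j fun i hi => by
        rw [Category.assoc, ← MonoidalCategory.whiskerLeft_comp, Sigma.ι_π_of_ne X hi.symm]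
        simp]
      simp [← MonoidalCategory.whiskerLeft_comp]

/-- the characters of homology are representable -/
theorem exists_rep (H : T) {m : ℤ} {S : T} (hS : Sph m S) :
    ∃ (K : T) (κ : (S ⟶ H ⊗ K) →+ AddCircle (1 : ℚ)),
      (∀ {X : T} (w : X ⟶ K), (∀ a : S ⟶ H ⊗ X, κ (a ≫ H ◁ w) = 0) → w = 0) ∧
      ∀ {X : T} (a : S ⟶ H ⊗ X), a ≠ 0 → ∃ w : X ⟶ K, κ (a ≫ H ◁ w) ≠ 0 := by
  obtain ⟨K, κ, h⟩ := brown_cpt (G := 𝟙_ T) (fun n _ X f => StableCat.compact n X f)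
    StableCat.generator (dualCoh H ⟨m, hS⟩) fun n => inferInstance
  refine ⟨K, κ, fun w hw => (h _).inj (AddMonoidHom.ext hw), fun a ha => ?_⟩
  obtain ⟨χ, hχ⟩ := CharacterModule.exists_character_apply_ne_zero_of_ne_zero ha
  obtain ⟨w, hw⟩ := (h _).surj χ
  have hw' : κ.comp (hm S H w) = χ := hw
  exact ⟨w, fun h0 => hχ ((DFunLike.congr_fun hw' a).symm.trans h0)⟩

end rep

end Vale.Agent.P236K.D3
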