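import Vale.Agent.P236K.D3.Cells

/-!
# P236, block D3: the cyclic extended cube, abstract form (`Sk.wabs`)
-/

open CategoryTheory MonoidalCategory Limits Pretriangulated
open Functor.LaxMonoidal Functor.OplaxMonoidal
open Vale.Agent.P251 Vale.Agent.P251.T Vale.Agent.P251.H Vale.Agent.P251.I Vale.Agent.P251.M
open Vale.Agent.P236Z Vale.Agent.P236Z.Cat Vale.Agent.P236Z.Tr

set_option linter.unusedSectionVars false

noncomputable section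

namespace Vale.Agent.P236K.D3

variable {W : Tower}

theorem U_tr_tu (X : W.T₁.C) : (UU W).map (W.s₁.tr (Y := (tv W).obj ((UU W).obj X))
    (tu W ((UU W).obj X)).inv) = nr W X ≫ (tu W _).inv := by
  have h : W.s₁.γ ((tv W).obj ((UU W).obj X)) = 𝟙 _ := by
    rw [Step.γ, W.L₁.tv_h]
    exact (UU W).map_id _
  rw [Step.U_tr]
  simp [Fin.sum_univ_three, h, nr]

namespace Sk

variable (k : Sk W)

/-- The orbits of `X ⊗ E`. -/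
theorem orbits (X : W.T₁.C) : ∃ (D₁ D₂ : W.T₀.C) (f₁ : (UU W).obj X ⊗ 𝟙_ _ ⟶ D₁)
    (g₁ : D₁ ⟶ (UU W).obj X ⊗ A1 W) (h₁ : _) (f₂ : D₁ ⟶ D₂) (g₂ : D₂ ⟶ (UU W).obj X ⊗ A2 W) (h₂ : _)
    (o : X ⊗ k.E ⟶ (tv W).obj D₂) (θ : (UU W).obj X ⊗ A2 W ⟶ ((UU W).obj X ⊗ A1 W)⟦(1 : ℤ)⟧),
    Dist f₁ g₁ h₁ ∧ Dist f₂ g₂ h₂ ∧ Orb (tv W) o ∧ h₂ ≫ g₁⟦(1 : ℤ)⟧' = nr W X ▷ A2 W ≫ θ ∧
    (∀ {B : W.T₀.C} (m : X ⟶ (tv W).obj B) (a : D₂ ⟶ B),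
      o ≫ (tv W).map a = (X ◁ k.ε ≫ (ρ_ X).hom) ≫ m →
      f₁ ≫ f₂ ≫ a = (ρ_ _).hom ≫ (UU W).map m ≫ (tu W B).hom) ∧
    ∀ {B : W.T₀.C} (m : X ⊗ (ind W).obj (A2 W) ⟶ (tv W).obj B) (a : (UU W).obj X ⊗ A2 W ⟶ B),
      unX W X (A2 W) ≫ (UU W).map m = a ≫ (tu W B).inv →
      X ◁ k.e₂ ≫ m = o ≫ (tv W).map (g₂ ≫ a) := by
  obtain ⟨o₀, O₀, u₀⟩ := exists_orb X (𝟙_ W.T₀.C)
  obtain ⟨p₁, P₁, -⟩ := exists_orb X (A1 W)
  obtain ⟨p₂, P₂, u₂⟩ := exists_orb X (A2 W)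
  obtain ⟨D₁, f₁, g₁, h₁, o₁, T₁, O₁, a₁, b₁, -⟩ := Orb.ext (distL k.D₁ X) O₀ P₁
  obtain ⟨D₂, f₂, g₂, h₂, o₂, T₂, O₂, a₂, b₂, c₂⟩ := Orb.ext (distL k.D₂ X) O₁ P₂
  obtain ⟨θ, hθ⟩ := P₂.surj (X ◁ k.ι₂ ≫ ls X _ ≫ sh (tv W) p₁)
  have fl : ∀ {B : W.T₀.C} (a : (UU W).obj X ⊗ A2 W ⟶ B),
      unX W X (A2 W) ≫ (UU W).map (p₂ ≫ (tv W).map a) = a ≫ (tu W B).inv := fun a => by
    rw [Functor.map_comp, reassoc_of% u₂, tu_nat]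
  refine ⟨D₁, D₂, f₁, g₁, h₁, f₂, g₂, h₂, o₂, θ, T₁, T₂, O₂, P₂.inj ?_, fun {B} m a h => ?_,
    fun m a h => ?_⟩
  · rw [Functor.map_comp, ← reassoc_of% c₂, sh_comp, ← b₁, ← comp_sh, ← ls_nat_assoc,
      ← MonoidalCategory.whiskerLeft_comp_assoc, k.hd, MonoidalCategory.whiskerLeft_comp,
      Category.assoc, ← hθ]
    apply (unX_bij X (A2 W) _).1
    change unX W X (A2 W) ≫ (UU W).map _ = unX W X (A2 W) ≫ (UU W).map _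
    rw [fl]
    simp only [MonoidalPreadditive.whiskerLeft_add, Preadditive.add_comp, Functor.map_add,
      Preadditive.comp_add, MonoidalCategory.whiskerLeft_id, Category.id_comp,
      MonoidalCategory.whiskerLeft_comp, Category.assoc, nr, MonoidalPreadditive.add_whiskerRight,
      id_whiskerRight, comp_whiskerRight]
    have h3 : X ◁ (hh W ((ind W).obj (A2 W))).hom ≫ p₂ ≫ (tv W).map θ =
        p₂ ≫ (tv W).map (W.s₁.γ' X ▷ A2 W ≫ θ) := (unX_bij X (A2 W) _).1 (by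
      change unX W X (A2 W) ≫ (UU W).map _ = unX W X (A2 W) ≫ (UU W).map _
      rw [unX_h, fl, fl, Category.assoc])
    rw [h3, unX_h, fl, fl, Category.assoc]
  · rw [← cancel_mono (tu W B).inv, ← tu_nat, ← u₀, Category.assoc, ← Functor.map_comp,
      Functor.map_comp (tv W), Functor.map_comp (tv W), ← reassoc_of% a₁, ← reassoc_of% a₂, h, ε,
      Category.assoc, ← MonoidalCategory.whiskerLeft_comp_assoc,
      ← MonoidalCategory.whiskerLeft_comp_assoc, Category.assoc, k.he, ← Category.assoc (X ◁ _),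
      Functor.map_comp, unX_oe_assoc]
    simp
  · have h4 : m = p₂ ≫ (tv W).map a := (unX_bij X (A2 W) _).1 (h.trans (fl a).symm)
    rw [h4, reassoc_of% b₂, Functor.map_comp]

include k in
/-- The extended cube, abstract form. -/
theorem wabs {m : ℤ} {Y X C : W.T₁.C} {H K V : W.T₀.C} {j : (tv W).obj (𝟙_ _) ⟶ Y} {p : Y ⟶ X}
    {δ : X ⟶ ((tv W).obj (𝟙_ _))⟦(1 : ℤ)⟧} (D : Dist j p δ)
    (c : Y ⟶ C) (π : C ⟶ X ⊗ LL W) (hc : c ≫ π = p ≫ (ρ_ X).inv ≫ X ◁ W.s₁.ar)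
    (η : 𝟙_ _ ⟶ H) (P : H ⟶ K) (hH : PiZ (0 < ·) H) (hK : PiZ (· < m) K) (hm : 4 ≤ m)
    (hX : Cell (2 ≤ ·) ((UU W).obj X)) (hV : Cell (1 ≤ ·) V)
    (h1 : CofIn (Cell (2 ≤ ·)) ((UU W).map (j ≫ c)))
    (h2 : CofIn (Cell (· ≤ m - 4)) ((UU W).map π)) (u : (UU W).obj C ⟶ H)
    (hu : (UU W).map (j ≫ c) ≫ u = (tu W _).hom ≫ η) (ψ : (UU W).obj (X ⊗ LL W) ⟶ K)
    (hψ : u ≫ P = (UU W).map π ≫ ψ) (s : V ⟶ (UU W).obj (X ⊗ LL W))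
    (hs : s ≫ nr W (X ⊗ LL W) = 0) :
    ∃ (W' C' : W.T₀.C) (ι : (UU W).obj X ⟶ W') (ρ : W' ⟶ V) (φ : V ⟶ ((UU W).obj X)⟦(1 : ℤ)⟧)
      (i : 𝟙_ _ ⟶ C') (π' : C' ⟶ W') (g : W' ⟶ (𝟙_ _)⟦(1 : ℤ)⟧), Dist ι ρ φ ∧ Dist i π' g ∧
      ι ≫ g = W.s₁.dn δ ≫ (tu W _).hom⟦(1 : ℤ)⟧' ∧ φ ≫ (nr W X)⟦(1 : ℤ)⟧' = 0 ∧
      ∀ u' : C' ⟶ H, i ≫ u' = η → u' ≫ P = π' ≫ ρ ≫ s ≫ ψ := by
  obtain ⟨uY, Ψ, y₁, y₂, y₃⟩ := k.hopf j p c π hc η P hH hK h1 h2 u hu ψ hψ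
  obtain ⟨D₁, D₂, f₁, g₁, h₁, f₂, g₂, h₂, o, θ, T₁, T₂, O, hN, bot, top⟩ := k.orbits X
  have cD : Cell (2 ≤ ·) D₂ := Cell.ext T₂
    (Cell.ext T₁ (hX.iso (ρ_ _).symm)
      (cell_tensor hX (sph_A1.cell (D := (· = 1)) rfl) fun d e hd he => by omega))
    (cell_tensor hX (sph_A2.cell (D := (· = 2)) rfl) fun d e hd he => by omega)
  obtain ⟨φ, hφ⟩ := T₁.rot.rot.rot.lift₂ (A := V) ((s ≫ (k.κ X).inv) ≫ h₂) (by
    rw [Preadditive.comp_neg, Category.assoc, hN, Category.assoc,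
      ← (k.κ X).hom_inv_id_assoc θ, k.κ_nr_assoc, Iso.inv_hom_id_assoc, reassoc_of% hs,
      zero_comp, neg_zero])
  obtain ⟨W', ι, ρ, T⟩ := exists_mid (-φ)
  obtain ⟨b, b₁, b₂⟩ := T.map₂ T₂ f₁ (s ≫ (k.κ X).inv) (by
    rw [← hφ, Preadditive.neg_comp, Preadditive.comp_neg])
  let δ' : X ⟶ (tv W).obj ((𝟙_ W.T₀.C)⟦(1 : ℤ)⟧) := δ ≫ ((tv W).commShiftIso (1 : ℤ)).inv.app _
  obtain ⟨g, hg⟩ := O.surj ((X ◁ k.ε ≫ (ρ_ X).hom) ≫ δ')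
  obtain ⟨ξ, hξ⟩ := O.surj ((X ◁ k.ε ≫ (ρ_ X).hom) ≫ W.s₁.tr (tu W ((UU W).obj X)).inv)
  obtain ⟨C₂, i₂, π₂, T₃⟩ := exists_mid g
  obtain ⟨C', i, π', T'⟩ := exists_mid (b ≫ g)
  obtain ⟨n, n₁, n₂⟩ := T'.map₂ T₃ (𝟙 _) b (by simp)
  have T₀ := dist_iso T (ρ_ _).symm (Iso.refl _) (Iso.refl _) (f' := (ρ_ _).inv ≫ ι) (g' := ρ)
    (by simp) (by simp)
  refine ⟨W', C', _, ρ, _, i, π', b ≫ g, T₀, T', ?_, ?_, fun u' hu' => ?_⟩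
  · rw [Category.assoc, reassoc_of% b₁, bot δ' g hg, Iso.inv_hom_id_assoc, Step.dn,
      Functor.map_comp, Category.assoc, Category.assoc]
    congr 1
    have h5 := NatTrans.shift_app_comm W.s₁.tvU.hom (1 : ℤ) (𝟙_ W.T₀.C)
    rw [Functor.commShiftIso_comp_hom_app, Category.assoc, Functor.commShiftIso_id_hom_app] at h5
    rw [← cancel_epi ((UU W).map (((tv W).commShiftIso (1 : ℤ)).hom.app _)), ← Functor.map_comp_assoc,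
      Iso.hom_inv_id_app]
    rw [CategoryTheory.Functor.map_id, Category.id_comp]
    exact (Category.comp_id _).symm.trans h5.symm
  · have h6 : ((ρ_ _).inv ≫ ι) ≫ b ≫ ξ = nr W X := by
      rw [Category.assoc, reassoc_of% b₁, bot _ ξ hξ, U_tr_tu]
      simp
    rw [← h6, Functor.map_comp, ← Category.assoc, T₀.zero₃₁, zero_comp]
  · obtain ⟨u₂, hu₂⟩ := ext₁ T₃ η (cell_zero cD (hH.shift 1 (D' := (2 ≤ ·)) fun k hk => by omega)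
      (fun _ h => h) _)
    have cW : Cell (1 ≤ ·) W' := Cell.ext T₀ (hX.mono fun k hk => by omega) hV
    have e₁ : u' = n ≫ u₂ := inj₂ T' (cell_zero cW hH fun k hk => by omega) (by
      rw [hu', reassoc_of% n₁, hu₂])
    obtain ⟨χ, hχ⟩ := T₃.desc₂ (u₂ ≫ P)
      (cell_zero (sph_unit.cell (D := (· = 0)) rfl) hK (fun k hk => by omega) _)
    obtain ⟨m₂, m₃, m₄⟩ := (distR D k.E).map₂ (dist_map (tv W) T₃)
      (_ ◁ k.ε ≫ (ρ_ _).hom) o (by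
        rw [reassoc_of% hg, Category.assoc, rs_ρ, ← whisker_exchange_assoc, rightUnitor_naturality]
        simp [δ'])
    have e₂ : m₂ ≫ (tv W).map u₂ = uY := inj₂ (distR D k.E) (fun w => by
      obtain ⟨w, rfl⟩ := O.surj w
      rw [cell_zero cD hH (fun k hk => by omega) w, Functor.map_zero, comp_zero]) (by
      rw [y₁, reassoc_of% m₃, ← Functor.map_comp, hu₂, Category.assoc])
    have e₃ : χ = g₂ ≫ (k.κ X).hom ≫ ψ := by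
      refine O.inj ?_
      rw [← top Ψ _ y₃]
      refine inj₃ (distR D k.E) (fun w => ((Fr.tensor (D := (· = 0)) (D'' := (· ≤ 2))
        ((sph_unit.cell (D := (· = 0)) rfl).iso (tu W _).symm) k.frE fun d e hd he => by omega).shift 1
          (D' := (· ≤ 3)) fun k hk => by omega).tv hK (fun k hk => by omega) w) ?_
      rw [← y₂, ← e₂, reassoc_of% m₄, Category.assoc, ← Functor.map_comp, ← Functor.map_comp, hχ]
    rw [e₁, Category.assoc, ← hχ, ← reassoc_of% n₂, e₃, ← reassoc_of% b₂]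
    simp

end Sk

end Vale.Agent.P236K.D3
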