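import Vale.Agent.P236K.D3.Moore
import Vale.Agent.P236Z.Top.GeoCel

/-!
# P236, block D3: orbits of finite free objects, free cells

`Orb Φ o`: `o : A ⟶ Φ X` is a universal arrow.  `Fr W D A`: the object `A` of the Borel category has
no maps to objects without homotopy in the degrees `D`.
-/

open CategoryTheory MonoidalCategory Limits Pretriangulated
open Functor.LaxMonoidal Functor.OplaxMonoidal
open Vale.Agent.P251 Vale.Agent.P251.T Vale.Agent.P251.H Vale.Agent.P251.I Vale.Agent.P251.M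
open Vale.Agent.P236Z Vale.Agent.P236Z.Cat Vale.Agent.P236Z.Tr

universe v u v' u'

set_option linter.unusedSectionVars false

noncomputable section

namespace Vale.Agent.P236K.D3

section tri

variable {C : Type u} [Category.{v} C] [Preadditive C] [HasZeroObject C] [HasShift C ℤ]
  [∀ n : ℤ, (shiftFunctor C n).Additive] [Pretriangulated C]
  {X Y Z : C} {f : X ⟶ Y} {g : Y ⟶ Z} {h : Z ⟶ X⟦(1 : ℤ)⟧}

/-- extension along the first map -/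
theorem ext₁ (D : Dist f g h) {B : C} (a : X ⟶ B) (ha : h ≫ a⟦(1 : ℤ)⟧' = 0) :
    ∃ b : Y ⟶ B, f ≫ b = a := by
  obtain ⟨b, hb⟩ := D.desc₁ _ ha
  obtain ⟨b, rfl⟩ := (shiftFunctor C (1 : ℤ)).map_surjective b
  exact ⟨b, (shiftFunctor C (1 : ℤ)).map_injective (by rw [Functor.map_comp, hb])⟩

/-- the first map is a monomorphism on maps from `A` -/
theorem zero₁ (D : Dist f g h) {A : C} (hA : ∀ w : A⟦(1 : ℤ)⟧ ⟶ Z, w = 0) (a : A ⟶ X)
    (ha : a ≫ f = 0) : a = 0 := by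
  obtain ⟨b, hb⟩ := D.lift₁ (a⟦(1 : ℤ)⟧') (by rw [← Functor.map_comp, ha, Functor.map_zero])
  apply (shiftFunctor C (1 : ℤ)).map_injective
  rw [← hb, hA b, zero_comp, Functor.map_zero]

theorem inj₂ (D : Dist f g h) {B : C} (hB : ∀ w : Z ⟶ B, w = 0) {a b : Y ⟶ B}
    (e : f ≫ a = f ≫ b) : a = b := by
  obtain ⟨w, hw⟩ := D.desc₂ (a - b) (by rw [Preadditive.comp_sub, e, sub_self])
  rw [← sub_eq_zero, ← hw, hB w, comp_zero]

theorem inj₃ (D : Dist f g h) {B : C} (hB : ∀ w : X⟦(1 : ℤ)⟧ ⟶ B, w = 0) {a b : Z ⟶ B}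
    (e : g ≫ a = g ≫ b) : a = b := inj₂ D.rot hB e

theorem Dist.neg₂₃ (D : Dist f g h) : Dist f (-g) (-h) := by
  have := dist_iso D (Iso.refl _) (Iso.refl _) (f' := f) (g' := -g)
    (⟨-𝟙 Z, -𝟙 Z, by simp, by simp⟩ : Z ≅ Z) (by simp) (by simp)
  simpa using this

end tri

section orb

variable {C : Type u} [Category.{v} C] [Preadditive C] [HasZeroObject C] [HasShift C ℤ]
  [∀ n : ℤ, (shiftFunctor C n).Additive] [Pretriangulated C]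
  {D : Type u'} [Category.{v'} D] [Preadditive D] [HasZeroObject D] [HasShift D ℤ]
  [∀ n : ℤ, (shiftFunctor D n).Additive] [Pretriangulated D]
  (Φ : C ⥤ D) [Φ.CommShift ℤ] [Φ.IsTriangulated]

/-- a universal arrow -/
def Orb {A : D} {X : C} (o : A ⟶ Φ.obj X) : Prop :=
  ∀ Y : C, Function.Bijective fun h : X ⟶ Y => o ≫ Φ.map h

/-- the shift of an arrow -/
def sh {A : D} {X : C} (o : A ⟶ Φ.obj X) : A⟦(1 : ℤ)⟧ ⟶ Φ.obj (X⟦(1 : ℤ)⟧) :=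
  o⟦(1 : ℤ)⟧' ≫ (Φ.commShiftIso (1 : ℤ)).inv.app X

theorem sh_comp {A : D} {X Y : C} (o : A ⟶ Φ.obj X) (a : X ⟶ Y) :
    sh Φ o ≫ Φ.map (a⟦(1 : ℤ)⟧') = sh Φ (o ≫ Φ.map a) := by
  simp only [sh, Category.assoc, Functor.map_comp, Functor.commShiftIso_inv_naturality]

theorem comp_sh {A B : D} {X : C} (m : A ⟶ B) (o : B ⟶ Φ.obj X) :
    m⟦(1 : ℤ)⟧' ≫ sh Φ o = sh Φ (m ≫ o) := by
  simp only [sh, Category.assoc, Functor.map_comp]

theorem sh_cs {A : D} {X : C} (o : A ⟶ Φ.obj X) :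
    sh Φ o ≫ (Φ.commShiftIso (1 : ℤ)).hom.app X = o⟦(1 : ℤ)⟧' := by
  simp [sh]

theorem dist_map {X Y Z : C} {f : X ⟶ Y} {g : Y ⟶ Z} {h : Z ⟶ X⟦(1 : ℤ)⟧} (T : Dist f g h) :
    Dist (Φ.map f) (Φ.map g) (Φ.map h ≫ (Φ.commShiftIso (1 : ℤ)).hom.app X) :=
  Φ.map_distinguished _ T

variable {Φ}

theorem Orb.inj {A : D} {X Y : C} {o : A ⟶ Φ.obj X} (h : Orb Φ o) {a b : X ⟶ Y}
    (e : o ≫ Φ.map a = o ≫ Φ.map b) : a = b := (h Y).1 e

theorem Orb.zero {A : D} {X Y : C} {o : A ⟶ Φ.obj X} (h : Orb Φ o) {a : X ⟶ Y}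
    (e : o ≫ Φ.map a = 0) : a = 0 := h.inj (by rw [e, Functor.map_zero, comp_zero])

theorem Orb.surj {A : D} {X Y : C} {o : A ⟶ Φ.obj X} (h : Orb Φ o) (m : A ⟶ Φ.obj Y) :
    ∃ a : X ⟶ Y, o ≫ Φ.map a = m := (h Y).2 m

theorem Orb.sh_surj {A : D} {X Y : C} {o : A ⟶ Φ.obj X} (h : Orb Φ o)
    (m : A⟦(1 : ℤ)⟧ ⟶ Φ.obj Y) : ∃ a : X⟦(1 : ℤ)⟧ ⟶ Y, sh Φ o ≫ Φ.map a = m := by
  let e : (Y⟦(-1 : ℤ)⟧)⟦(1 : ℤ)⟧ ≅ Y := shiftNegShift Y (1 : ℤ)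
  obtain ⟨w, hw⟩ := (shiftFunctor D (1 : ℤ)).map_surjective
    (m ≫ Φ.map e.inv ≫ (Φ.commShiftIso (1 : ℤ)).hom.app _)
  obtain ⟨a, rfl⟩ := h.surj w
  refine ⟨a⟦(1 : ℤ)⟧' ≫ e.hom, ?_⟩
  rw [Φ.map_comp, ← Category.assoc, sh_comp, sh, hw]
  simp [← Φ.map_comp]

/-- universal arrows are closed under extensions -/
theorem Orb.ext {A₁ A₂ A₃ : D} {f : A₁ ⟶ A₂} {g : A₂ ⟶ A₃} {h : A₃ ⟶ A₁⟦(1 : ℤ)⟧}
    (T : Dist f g h) {X₁ X₃ : C} {o₁ : A₁ ⟶ Φ.obj X₁} {o₃ : A₃ ⟶ Φ.obj X₃} (h₁ : Orb Φ o₁)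
    (h₃ : Orb Φ o₃) : ∃ (X₂ : C) (f' : X₁ ⟶ X₂) (g' : X₂ ⟶ X₃) (h' : X₃ ⟶ X₁⟦(1 : ℤ)⟧)
      (o₂ : A₂ ⟶ Φ.obj X₂), Dist f' g' h' ∧ Orb Φ o₂ ∧ f ≫ o₂ = o₁ ≫ Φ.map f' ∧
        g ≫ o₃ = o₂ ≫ Φ.map g' ∧ h ≫ sh Φ o₁ = o₃ ≫ Φ.map h' := by
  obtain ⟨h', hh⟩ := h₃.surj (h ≫ sh Φ o₁)
  obtain ⟨X₂, f', g', T'⟩ := exists_mid h'
  obtain ⟨o₂, e₁, e₂⟩ := T.map₂ (dist_map Φ T') o₁ o₃ (by
    rw [← Category.assoc, hh, Category.assoc, sh_cs])
  refine ⟨X₂, f', g', h', o₂, T', fun Y => ⟨fun a b e => ?_, fun m => ?_⟩, e₁, e₂, hh.symm⟩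
  · have e' : o₂ ≫ Φ.map (a - b) = 0 := by
      rw [Φ.map_sub, Preadditive.comp_sub, sub_eq_zero]
      exact e
    obtain ⟨c, hc⟩ := T'.desc₂ (a - b) (h₁.zero (by
      rw [Φ.map_comp, ← reassoc_of% e₁, e', comp_zero]))
    obtain ⟨w, hw⟩ := T.desc₃ (o₃ ≫ Φ.map c) (by rw [reassoc_of% e₂, ← Φ.map_comp, hc, e'])
    obtain ⟨d, rfl⟩ := h₁.sh_surj w
    have h4 : h' ≫ d = c := h₃.inj (by rw [Φ.map_comp, reassoc_of% hh, hw])
    rw [← sub_eq_zero, ← hc, ← h4, ← Category.assoc, T'.zero₂₃, zero_comp]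
  · obtain ⟨a, ha⟩ := h₁.surj (f ≫ m)
    obtain ⟨b, hb⟩ := ext₁ T' a (h₃.zero (by
      rw [Φ.map_comp, reassoc_of% hh, sh_comp, ha, ← comp_sh, ← Category.assoc, T.zero₃₁,
        zero_comp]))
    obtain ⟨w, hw⟩ := T.desc₂ (m - o₂ ≫ Φ.map b) (by
      rw [Preadditive.comp_sub, reassoc_of% e₁, ← Φ.map_comp, hb, ha, sub_self])
    obtain ⟨c, rfl⟩ := h₃.surj w
    refine ⟨b + g' ≫ c, ?_⟩
    change o₂ ≫ Φ.map (b + g' ≫ c) = m
    rw [Φ.map_add, Preadditive.comp_add, Φ.map_comp, ← reassoc_of% e₂, hw, add_sub_cancel]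

end orb

section cell

variable {T : Type u} [Category.{v} T] [Preadditive T] [HasZeroObject T]
    [HasShift T ℤ] [∀ n : ℤ, (shiftFunctor T n).Additive] [Pretriangulated T]
    [MonoidalCategory T]

theorem PiZ.iso {D : ℤ → Prop} {K K' : T} (h : PiZ D K) (e : K' ≅ K) : PiZ D K' := fun k hk g => by
  rw [← cancel_mono e.hom, h k hk (g ≫ e.hom), zero_comp]

theorem PiZ.shift {D D' : ℤ → Prop} {K : T} (h : PiZ D K) (m : ℤ) (hD : ∀ k, D' k → D (k - m)) :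
    PiZ D' (K⟦m⟧) := fun k hk g => eq_zero_of_shift (k - m) m k (by ring) (h _ (hD k hk)) g

theorem PiZ.mono {D D' : ℤ → Prop} {K : T} (h : PiZ D K) (hD : ∀ k, D' k → D k) : PiZ D' K :=
  fun k hk => h k (hD k hk)

theorem cell_zero {D D' : ℤ → Prop} {A K : T} (hA : Cell D A) (hK : PiZ D' K)
    (hD : ∀ k, D k → D' k) (g : A ⟶ K) : g = 0 := hA.hom_zero (fun k hk => hK k (hD k hk)) g

theorem Sph.cell {a : ℤ} {A : T} (h : Sph a A) {D : ℤ → Prop} (ha : D a) : Cell D A :=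
  (Cell.sphere a ha).iso h.some.symm

theorem sph_unit : Sph 0 (𝟙_ T) := Sph.unit

theorem Low.piZ (h : Low T) {D : ℤ → Prop} {A : T} (hA : Cell D A) {n : ℤ}
    (hD : ∀ k, D k → n ≤ k) : PiZ (· < n) A := Cell.conn h.neg hA hD

theorem Moore.cell {a : ℤ} {A Z B : T} {x : A ⟶ Z} {y : Z ⟶ B} (h : Moore x y) (hA : Sph a A)
    {D : ℤ → Prop} (h0 : D a) (h1 : D (a + 1)) : Cell D Z :=
  Cell.ext h.choose_spec.rot (hA.cell h0) ((hA.shift 1 _ rfl).cell h1)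

variable [SymmetricCategory T] [TensorTriangulated T]

theorem cell_tensor {D D' D'' : ℤ → Prop} {X Y : T} (hX : Cell D X) (hY : Cell D' Y)
    (h : ∀ d e, D d → D' e → D'' (d + e)) : Cell D'' (X ⊗ Y) := by
  induction hY with
  | zero Y hY => exact Cell.zero _ ((tensorLeft X).map_isZero hY)
  | sphere e he => exact (hX.shift e fun d hd => h d e hd he).iso (S.tensorSph e X).symm
  | ext hd _ _ ih₁ ih₃ =>
    obtain ⟨_, hd'⟩ := dist_tensL hd X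
    exact Cell.ext hd' ih₁ ih₃

end cell

section free

variable (W : Tower)

/-- the restriction -/
abbrev UU : W.T₁.C ⥤ W.T₀.C := W.s₁.U.F

/-- the trivial action -/
abbrev tv : W.T₀.C ⥤ W.T₁.C := W.L₁.tv.F

/-- the induction -/
abbrev ind : W.T₀.C ⥤ W.T₁.C := W.s₁.ind

/-- the action of the generator -/
abbrev hh (X : W.T₁.C) : X ≅ X := W.L₁.t.h X

/-- the restriction of the trivial action -/
def tu (Y : W.T₀.C) : (UU W).obj ((tv W).obj Y) ≅ Y := W.s₁.tvU.app Y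

@[reassoc]
theorem tu_nat {Y Y' : W.T₀.C} (a : Y ⟶ Y') :
    (tu W Y).inv ≫ (UU W).map ((tv W).map a) = a ≫ (tu W Y').inv :=
  (W.s₁.tvU.inv.naturality a).symm

/-- the unit of `X ⊗ ind A` -/
def unX (X : W.T₁.C) (A : W.T₀.C) : (UU W).obj X ⊗ A ⟶ (UU W).obj (X ⊗ (ind W).obj A) :=
  (UU W).obj X ◁ W.s₁.un A ≫ μ (UU W) X ((ind W).obj A)

variable {W}

theorem unX_bij (X : W.T₁.C) (A : W.T₀.C) (B : W.T₁.C) :
    Function.Bijective fun m : X ⊗ (ind W).obj A ⟶ B => unX W X A ≫ (UU W).map m := by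
  have h : ∀ m : X ⊗ (ind W).obj A ⟶ B, unX W X A ≫ (UU W).map m =
      W.s₁.un _ ≫ (UU W).map (W.s₁.projMap X A ≫ m) := fun m => by
    rw [Functor.map_comp]
    exact ((W.s₁.pun_projMap_assoc X A _).trans (Category.assoc _ _ _).symm).symm
  refine ⟨fun m m' e => (cancel_epi (W.s₁.projMap X A)).1 (W.s₁.un_ext (by
    rw [← h, ← h]; exact e)), fun y => ?_⟩
  obtain ⟨f, hf⟩ := W.s₁.ind_lift y
  exact ⟨inv (W.s₁.projMap X A) ≫ f, (h _).trans (by rw [IsIso.hom_inv_id_assoc, hf])⟩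

@[reassoc]
theorem unX_left {X X' : W.T₁.C} (a : X ⟶ X') (A : W.T₀.C) :
    unX W X A ≫ (UU W).map (a ▷ (ind W).obj A) = (UU W).map a ▷ A ≫ unX W X' A := by
  rw [unX, unX, Category.assoc, ← μ_natural_left, whisker_exchange_assoc]

@[reassoc]
theorem unX_right (X : W.T₁.C) (A : W.T₀.C) {B : W.T₁.C} (b : (ind W).obj A ⟶ B) :
    unX W X A ≫ (UU W).map (X ◁ b) =
      (UU W).obj X ◁ (W.s₁.un A ≫ (UU W).map b) ≫ μ (UU W) X B := by
  rw [unX, Category.assoc, ← μ_natural_right, MonoidalCategory.whiskerLeft_comp_assoc]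

/-- the orbits of `X ⊗ ind A` -/
theorem exists_orb (X : W.T₁.C) (A : W.T₀.C) :
    ∃ o : X ⊗ (ind W).obj A ⟶ (tv W).obj ((UU W).obj X ⊗ A), Orb (tv W) o ∧
      unX W X A ≫ (UU W).map o = (tu W _).inv := by
  obtain ⟨o, ho⟩ := (unX_bij X A _).2 (tu W ((UU W).obj X ⊗ A)).inv
  replace ho : unX W X A ≫ (UU W).map o = (tu W _).inv := ho
  have h : ∀ {Y : W.T₀.C} (a : (UU W).obj X ⊗ A ⟶ Y),
      unX W X A ≫ (UU W).map (o ≫ (tv W).map a) = a ≫ (tu W Y).inv := fun a => by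
    rw [Functor.map_comp, reassoc_of% ho, tu_nat]
  refine ⟨o, fun Y => ⟨fun a b e => ?_, fun m => ?_⟩, ho⟩
  · rw [← cancel_mono (tu W Y).inv, ← h, ← h]
    exact congrArg (fun m => unX W X A ≫ (UU W).map m) e
  · refine ⟨unX W X A ≫ (UU W).map m ≫ (tu W Y).hom, (unX_bij X A _).1 ?_⟩
    exact (h _).trans (by simp)

/-- the action on the free factor is the inverse action on the other factor -/
theorem unX_h (X : W.T₁.C) (A : W.T₀.C) {Y : W.T₀.C} (m : X ⊗ (ind W).obj A ⟶ (tv W).obj Y) :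
    unX W X A ≫ (UU W).map (X ◁ (hh W _).hom ≫ m) =
      W.s₁.γ' X ▷ A ≫ unX W X A ≫ (UU W).map m := by
  have h : X ◁ (hh W ((ind W).obj A)).hom ≫ m = (hh W X).inv ▷ _ ≫ m := by
    rw [← cancel_epi ((hh W X).hom ▷ (ind W).obj A), hom_inv_whiskerRight_assoc,
      ← tensorHom_def_assoc, ← W.L₁.t.ten, ← W.L₁.t.nat, W.L₁.tv_h, Category.comp_id]
  rw [h, Functor.map_comp, unX_left_assoc]

theorem hh_shift (X : W.T₁.C) : (hh W (X⟦(1 : ℤ)⟧)).hom = (hh W X).hom⟦(1 : ℤ)⟧' := by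
  have h : (hh W ((𝟙_ W.T₁.C)⟦(1 : ℤ)⟧)).hom = 𝟙 _ := by
    let e : (tv W).obj ((𝟙_ W.T₀.C)⟦(1 : ℤ)⟧) ≅ (𝟙_ W.T₁.C)⟦(1 : ℤ)⟧ :=
      ((tv W).commShiftIso (1 : ℤ)).app _ ≪≫
        (shiftFunctor W.T₁.C (1 : ℤ)).mapIso (Functor.Monoidal.εIso (tv W)).symm
    rw [← cancel_epi e.hom, W.L₁.t.nat, W.L₁.tv_h, Category.id_comp, Category.comp_id]
  rw [← cancel_epi (TensorTriangulated.e X).hom, W.L₁.t.nat, W.L₁.t.ten, h, tensorHom_id,
    TensorTriangulated.e_naturality]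

variable (W) in
/-- `A` behaves like an object with free cells in the dimensions `D` -/
def Fr (D : ℤ → Prop) (A : W.T₁.C) : Prop :=
  ∀ B : W.T₁.C, PiZ D ((UU W).obj B) → ∀ f : A ⟶ B, f = 0

namespace Fr

variable {D D' D'' : ℤ → Prop}

theorem extClosed (D : ℤ → Prop) : ExtClosed (Fr W D) where
  zero _ h _ _ _ := h.eq_of_src _ _
  ext T h₁ h₃ B hB f := by
    obtain ⟨b, hb⟩ := T.desc₂ f (h₁ B hB _)
    rw [← hb, h₃ B hB b, comp_zero]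

theorem iso {A A' : W.T₁.C} (h : Fr W D A) (e : A ≅ A') : Fr W D A' := (extClosed D).iso e h

theorem ext {X Y Z : W.T₁.C} {f : X ⟶ Y} {g : Y ⟶ Z} {h : Z ⟶ X⟦(1 : ℤ)⟧} (T : Dist f g h)
    (h₁ : Fr W D X) (h₃ : Fr W D Z) : Fr W D Y := (extClosed D).ext T h₁ h₃

theorem mono {A : W.T₁.C} (h : Fr W D A) (hD : ∀ k, D k → D' k) : Fr W D' A :=
  fun B hB => h B (hB.mono hD)

theorem ind {A : W.T₀.C} (h : Cell D A) : Fr W D ((ind W).obj A) := fun _ hB f =>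
  W.s₁.un_ext (by rw [cell_zero h hB (fun _ h => h) (_ ≫ _), Functor.map_zero, comp_zero])

theorem shift {A : W.T₁.C} (h : Fr W D A) (m : ℤ) (hD : ∀ k, D k → D' (k + m)) :
    Fr W D' (A⟦m⟧) := fun B hB f => by
  have h1 : PiZ D ((UU W).obj (B⟦-m⟧)) :=
    (hB.shift (-m) fun k hk => by simpa using hD k hk).iso (((UU W).commShiftIso (-m)).app B)
  obtain ⟨g, hg⟩ := (shiftFunctor W.T₁.C m).map_surjective (f ≫ (shiftNegShift B m).inv)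
  rw [← cancel_mono (shiftNegShift B m).inv, ← hg, h _ h1 g, Functor.map_zero, zero_comp]

theorem tensor {X A : W.T₁.C} (hX : Cell D ((UU W).obj X)) (h : Fr W D' A)
    (hD : ∀ d e, D d → D' e → D'' (d + e)) : Fr W D'' (X ⊗ A) := fun B hB f => by
  have h1 : PiZ D' ((UU W).obj ((ihom X).obj B)) := by
    refine PiZ.iso (fun k hk g => ?_) (asIso (W.s₁.ihomMap X B))
    apply MonoidalClosed.uncurry_injective
    rw [cell_zero (cell_tensor hX (Cell.sphere (D := D') k hk) hD) hB (fun _ h => h)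
      (MonoidalClosed.uncurry g), MonoidalClosed.uncurry_eq, MonoidalPreadditive.whiskerLeft_zero,
      zero_comp]
  rw [← MonoidalClosed.uncurry_curry f, h _ h1 (MonoidalClosed.curry f), MonoidalClosed.uncurry_eq,
    MonoidalPreadditive.whiskerLeft_zero, zero_comp]

theorem tv {A : W.T₁.C} (h : Fr W D A) {K : W.T₀.C} (hK : PiZ D' K) (hD : ∀ k, D k → D' k)
    (f : A ⟶ (tv W).obj K) : f = 0 := h _ ((hK.mono hD).iso (tu W K)) f

end Fr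

end free

end Vale.Agent.P236K.D3
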